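import Mathlib
import Vale.Agent.P271.H879.RegDom

/-! P271 (helper879), block CHART, algebraic part: points of `ℂ[X]`, differentials, generators of
the ideal of a variety near a regular point. -/

open MvPolynomial IsLocalRing

namespace Vale.Agent.P271.H879

variable {N : ℕ}

/-- The differential of a polynomial at a point, as a row vector. -/
noncomputable def dAt (y : Fin N → ℂ) : MvPolynomial (Fin N) ℂ →ₗ[ℂ] (Fin N → ℂ) :=
  LinearMap.pi fun j => (aeval y : MvPolynomial (Fin N) ℂ →ₐ[ℂ] ℂ).toLinearMap ∘ₗ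
    (pderiv j).toLinearMap

theorem dAt_apply (y : Fin N → ℂ) (Q : MvPolynomial (Fin N) ℂ) (j : Fin N) :
    dAt y Q j = eval y (pderiv j Q) := by
  simp [dAt, aeval_eq_eval]

/-- The maximal ideal of a point. -/
noncomputable def mAt (y : Fin N → ℂ) : Ideal (MvPolynomial (Fin N) ℂ) :=
  RingHom.ker (eval y)

theorem mem_mAt {y : Fin N → ℂ} {Q : MvPolynomial (Fin N) ℂ} : Q ∈ mAt y ↔ eval y Q = 0 :=
  Iff.rfl

instance mAt_isMaximal (y : Fin N → ℂ) : (mAt y).IsMaximal :=
  RingHom.ker_isMaximal_of_surjective (eval y) fun c => ⟨C c, eval_C c⟩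

theorem dAt_mul (y : Fin N → ℂ) (P Q : MvPolynomial (Fin N) ℂ) :
    dAt y (P * Q) = eval y P • dAt y Q + eval y Q • dAt y P := by
  funext j
  simp only [dAt_apply, Derivation.leibniz, smul_eq_mul, map_add, map_mul, Pi.add_apply,
    Pi.smul_apply]

theorem dAt_C (y : Fin N → ℂ) (c : ℂ) : dAt y (C c) = 0 := by
  funext j
  simp [dAt_apply]

theorem dAt_X (y : Fin N → ℂ) (i : Fin N) : dAt y (X i) = Pi.single i 1 := by
  funext j
  rw [dAt_apply, pderiv_X]
  by_cases h : j = i
  · subst h; simp
  · simp [h, Ne.symm h]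

/-- Taylor expansion to first order. -/
theorem taylor_one (y : Fin N → ℂ) (Q : MvPolynomial (Fin N) ℂ) :
    Q - C (eval y Q) - ∑ j, C (dAt y Q j) * (X j - C (y j)) ∈ mAt y ^ 2 := by
  induction Q using MvPolynomial.induction_on with
  | C a => simp [dAt_C]
  | add p q hp hq =>
    have := Ideal.add_mem _ hp hq
    convert this using 1
    simp only [map_add, Pi.add_apply, add_mul, Finset.sum_add_distrib]
    ring
  | mul_X p i hp =>
    have h1 : X i - C (y i) ∈ mAt y := by simp [mem_mAt]
    have h2 : p - C (eval y p) ∈ mAt y := by simp [mem_mAt]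
    have h3 : (p - C (eval y p)) * (X i - C (y i)) ∈ mAt y ^ 2 := by
      rw [pow_two]; exact Ideal.mul_mem_mul h2 h1
    have h4 := Ideal.add_mem _ (Ideal.mul_mem_left _ (C (y i)) hp) h3
    convert h4 using 1
    have h5 : ∑ j, C (dAt y (p * X i) j) * (X j - C (y j)) =
        C (eval y p) * (X i - C (y i)) + C (y i) * ∑ j, C (dAt y p j) * (X j - C (y j)) := by
      rw [dAt_mul, dAt_X]
      simp only [Pi.add_apply, Pi.smul_apply, smul_eq_mul, map_add, map_mul, add_mul,
        Finset.sum_add_distrib, eval_X]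
      congr 1
      · rw [Finset.sum_eq_single i]
        · simp
        · intro b _ hb; simp [hb]
        · simp
      · rw [Finset.mul_sum]
        refine Finset.sum_congr rfl fun j _ => ?_
        ring
    rw [h5]
    simp only [map_mul, eval_X]
    ring

theorem mem_sq_of_dAt {y : Fin N → ℂ} {Q : MvPolynomial (Fin N) ℂ} (h0 : eval y Q = 0)
    (h1 : dAt y Q = 0) : Q ∈ mAt y ^ 2 := by
  have := taylor_one y Q
  simpa [h0, h1] using this

/-- Elements of the maximal ideal whose differentials span generate the maximal ideal modulo its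
square. -/
theorem mAt_le_sup {κ : Type*} [Fintype κ] {y : Fin N → ℂ} {g : κ → MvPolynomial (Fin N) ℂ}
    (hg : ∀ i, eval y (g i) = 0) (hsp : Submodule.span ℂ (Set.range fun i => dAt y (g i)) = ⊤) :
    mAt y ≤ Ideal.span (Set.range g) ⊔ mAt y ^ 2 := by
  intro Q hQ
  have h1 : dAt y Q ∈ Submodule.span ℂ (Set.range fun i => dAt y (g i)) := by
    rw [hsp]; trivial
  obtain ⟨c, hc⟩ := (Submodule.mem_span_range_iff_exists_fun ℂ).mp h1
  have h2 : Q - ∑ i, c i • g i ∈ mAt y ^ 2 := by
    refine mem_sq_of_dAt ?_ ?_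
    · rw [map_sub, map_sum, mem_mAt.mp hQ]
      simp [smul_eval, hg]
    · rw [map_sub, map_sum]
      simp only [map_smul]
      rw [hc, sub_self]
  have h3 : ∑ i, c i • g i ∈ Ideal.span (Set.range g) := by
    refine Ideal.sum_mem _ fun i _ => ?_
    rw [smul_eq_C_mul]
    exact Ideal.mul_mem_left _ _ (Ideal.subset_span ⟨i, rfl⟩)
  have h4 : Q = ∑ i, c i • g i + (Q - ∑ i, c i • g i) := by ring
  rw [h4]
  exact Submodule.add_mem_sup h3 h2

/-- Nakayama: these elements generate the maximal ideal of the local ring. -/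
theorem maximalIdeal_le {κ : Type*} [Fintype κ] {y : Fin N → ℂ}
    {g : κ → MvPolynomial (Fin N) ℂ} (hg : ∀ i, eval y (g i) = 0)
    (hsp : Submodule.span ℂ (Set.range fun i => dAt y (g i)) = ⊤) :
    maximalIdeal (Localization.AtPrime (mAt y)) ≤
      Ideal.span (Set.range fun i => algebraMap _ (Localization.AtPrime (mAt y)) (g i)) := by
  set A := Localization.AtPrime (mAt y) with hA
  have h1 : (mAt y).map (algebraMap (MvPolynomial (Fin N) ℂ) A) = maximalIdeal A :=
    Localization.AtPrime.map_eq_maximalIdeal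
  have h2 := Ideal.map_mono (f := algebraMap (MvPolynomial (Fin N) ℂ) A) (mAt_le_sup hg hsp)
  rw [Ideal.map_sup, Ideal.map_pow, h1, Ideal.map_span, ← Set.range_comp] at h2
  refine Submodule.le_of_le_smul_of_le_jacobson_bot (I := maximalIdeal A)
    (IsNoetherian.noetherian _) (IsLocalRing.maximalIdeal_le_jacobson _) ?_
  rw [pow_two] at h2
  exact h2

/-- A surjection from a domain to a ring of the same (finite) dimension is injective. -/
theorem inj_of_dim {B S : Type*} [CommRing B] [IsDomain B] [CommRing S] (f : B →+* S)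
    (hf : Function.Surjective f) {n : ℕ} (hB : ringKrullDim B ≤ n) (hS : ringKrullDim S = n)
    {b : B} (hb : f b = 0) : b = 0 := by
  by_contra hb0
  have h1 := ringKrullDim_quotient_succ_le_of_nonZeroDivisor (R := B) (r := b)
    (mem_nonZeroDivisors_of_ne_zero hb0)
  let f' : B ⧸ Ideal.span {b} →+* S :=
    Ideal.Quotient.lift (Ideal.span {b}) f (by
      intro a ha
      have : Ideal.span {b} ≤ RingHom.ker f := by
        rw [Ideal.span_le]
        rintro _ rfl
        exact hb
      exact this ha)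
  have hf' : Function.Surjective f' := by
    intro z
    obtain ⟨a, rfl⟩ := hf z
    exact ⟨Ideal.Quotient.mk _ a, Ideal.Quotient.lift_mk _ _ _⟩
  have h2 := ringKrullDim_le_of_surjective f' hf'
  rw [hS] at h2
  have h3 := (add_le_add_left h2 1).trans (h1.trans hB)
  have h4 : n + 1 ≤ n := by exact_mod_cast h3
  omega

/-- The abstract form of the dimension argument. -/
theorem key_aux {A S : Type*} [CommRing A] [IsLocalRing A] [IsNoetherianRing A] [CommRing S]
    {J : Ideal A} (hJm : J ≤ maximalIdeal A) {κ : Type*} [Fintype κ] {g : κ → A}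
    (hg : ∀ i, g i ∈ maximalIdeal A) (hm : maximalIdeal A ≤ Ideal.span (Set.range g) ⊔ J)
    (f0 : A →+* S) (hf0 : Function.Surjective f0) (hf0J : ∀ a ∈ J, f0 a = 0) :
    ringKrullDim S ≤ (Fintype.card κ : ℕ) ∧
    (ringKrullDim S = (Fintype.card κ : ℕ) → ∀ a, f0 a = 0 → a ∈ J) := by
  have hJt : J ≠ ⊤ := fun h => (maximalIdeal.isMaximal A).ne_top (top_le_iff.mp (h ▸ hJm))
  have hnt : Nontrivial (A ⧸ J) := Ideal.Quotient.nontrivial_iff.mpr hJt
  have hloc : IsLocalRing (A ⧸ J) := IsLocalRing.of_surjective' (Ideal.Quotient.mk J)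
    Ideal.Quotient.mk_surjective
  have hmB : maximalIdeal (A ⧸ J) =
      Ideal.span (Set.range fun i : κ => Ideal.Quotient.mk J (g i)) := by
    refine le_antisymm ?_ (Ideal.span_le.mpr ?_)
    · intro b hb
      obtain ⟨a, rfl⟩ := Ideal.Quotient.mk_surjective b
      have ha : a ∈ maximalIdeal A := by
        rw [mem_maximalIdeal, mem_nonunits_iff] at hb ⊢
        exact fun hu => hb (hu.map _)
      have h1 := Ideal.mem_map_of_mem (Ideal.Quotient.mk J) (hm ha)
      rw [Ideal.map_sup, Ideal.map_quotient_self, sup_bot_eq, Ideal.map_span,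
        ← Set.range_comp] at h1
      exact h1
    · rintro _ ⟨i, rfl⟩
      show _ ∈ maximalIdeal (A ⧸ J)
      rw [mem_maximalIdeal, mem_nonunits_iff]
      intro hu
      obtain ⟨v, hv⟩ := hu.exists_right_inv
      obtain ⟨v', rfl⟩ := Ideal.Quotient.mk_surjective v
      rw [← map_mul, ← map_one (Ideal.Quotient.mk J), Ideal.Quotient.eq] at hv
      have h2 := (maximalIdeal A).sub_mem (Ideal.mul_mem_right v' _ (hg i)) (hJm hv)
      simp only [sub_sub_cancel] at h2
      exact (maximalIdeal.isMaximal A).ne_top ((Ideal.eq_top_iff_one _).mpr h2)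
  have hfr : (maximalIdeal (A ⧸ J)).spanFinrank ≤ Fintype.card κ := by
    rw [hmB]
    refine (Submodule.spanFinrank_span_le_ncard_of_finite (Set.finite_range _)).trans ?_
    rw [← Set.image_univ]
    refine (Set.ncard_image_le Set.finite_univ).trans ?_
    rw [Set.ncard_univ, Nat.card_eq_fintype_card]
  let f : A ⧸ J →+* S := Ideal.Quotient.lift J f0 hf0J
  have hf : Function.Surjective f := by
    intro z
    obtain ⟨a, rfl⟩ := hf0 z
    exact ⟨Ideal.Quotient.mk J a, Ideal.Quotient.lift_mk _ _ _⟩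
  have hd1 : ringKrullDim S ≤ ringKrullDim (A ⧸ J) := ringKrullDim_le_of_surjective f hf
  have hd2 : ringKrullDim (A ⧸ J) ≤ (maximalIdeal (A ⧸ J)).spanFinrank :=
    ringKrullDim_le_spanFinrank_maximalIdeal (A ⧸ J)
  have hd3 : ringKrullDim S ≤ (Fintype.card κ : ℕ) :=
    hd1.trans (hd2.trans (by exact_mod_cast hfr))
  refine ⟨hd3, fun hd a ha => ?_⟩
  have hreg : IsRegularLocalRing (A ⧸ J) := by
    refine IsRegularLocalRing.of_spanFinrank_maximalIdeal_le (A ⧸ J) ?_
    refine le_trans ?_ hd1
    rw [hd]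
    exact_mod_cast hfr
  have hdom : IsDomain (A ⧸ J) := Reg.isDomain (A ⧸ J)
  have hB : ringKrullDim (A ⧸ J) ≤ (Fintype.card κ : ℕ) := hd2.trans (by exact_mod_cast hfr)
  rw [← Ideal.Quotient.eq_zero_iff_mem]
  exact inj_of_dim f hf hB hd (by
    show Ideal.Quotient.lift J f0 hf0J (Ideal.Quotient.mk J a) = 0
    rw [Ideal.Quotient.lift_mk, ha])

section Key

variable {R : Type} [CommRing R] [IsDomain R] [Algebra ℂ R]

omit [IsDomain R] [Algebra ℂ R] in
/-- The local ring of the variety near a regular point is defined by elements with independent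
differentials. -/
theorem key {κ ι : Type*} [Fintype κ] [Fintype ι] (π : MvPolynomial (Fin N) ℂ →+* R)
    (hπ : Function.Surjective π) (p : Ideal R) [p.IsPrime] {y : Fin N → ℂ}
    (hp : mAt y = p.comap π) {g : κ → MvPolynomial (Fin N) ℂ} {P : ι → MvPolynomial (Fin N) ℂ}
    (hg : ∀ i, eval y (g i) = 0) (hP : ∀ i, π (P i) = 0)
    (hsp : Submodule.span ℂ (Set.range (Sum.elim (fun i => dAt y (g i))
      (fun i => dAt y (P i)))) = ⊤) :
    ringKrullDim (Localization.AtPrime p) ≤ (Fintype.card κ : ℕ) ∧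
    (ringKrullDim (Localization.AtPrime p) = (Fintype.card κ : ℕ) →
      ∀ Q, π Q = 0 → ∃ s, eval y s ≠ 0 ∧ s * Q ∈ Ideal.span (Set.range P)) := by
  classical
  set A := Localization.AtPrime (mAt y) with hA
  have hP0 : ∀ i, eval y (P i) = 0 := by
    intro i
    rw [← mem_mAt, hp, Ideal.mem_comap, hP i]
    exact Ideal.zero_mem _
  have hmA : maximalIdeal A ≤ Ideal.span (Set.range fun i : κ ⊕ ι =>
      algebraMap _ A (Sum.elim g P i)) := by
    refine maximalIdeal_le (g := Sum.elim g P) ?_ ?_
    · rintro (i | i)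
      · exact hg i
      · exact hP0 i
    · rw [← hsp]
      congr 2
      funext i
      rcases i with i | i <;> rfl
  set J : Ideal A := (Ideal.span (Set.range P)).map (algebraMap _ A) with hJ
  have hJm : J ≤ maximalIdeal A := by
    rw [hJ, Ideal.map_le_iff_le_comap, Ideal.span_le]
    rintro _ ⟨i, rfl⟩
    show algebraMap _ A (P i) ∈ maximalIdeal A
    rw [← Localization.AtPrime.map_eq_maximalIdeal]
    exact Ideal.mem_map_of_mem _ (mem_mAt.mpr (hP0 i))
  have hgm : ∀ i, algebraMap _ A (g i) ∈ maximalIdeal A := by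
    intro i
    rw [← Localization.AtPrime.map_eq_maximalIdeal]
    exact Ideal.mem_map_of_mem _ (mem_mAt.mpr (hg i))
  have hm : maximalIdeal A ≤ Ideal.span (Set.range fun i => algebraMap _ A (g i)) ⊔ J := by
    refine hmA.trans (Ideal.span_le.mpr ?_)
    rintro _ ⟨i | i, rfl⟩
    · exact Ideal.mem_sup_left (Ideal.subset_span ⟨i, rfl⟩)
    · exact Ideal.mem_sup_right (Ideal.mem_map_of_mem _ (Ideal.subset_span ⟨i, rfl⟩))
  -- the map to the local ring of the variety
  let f0 : A →+* Localization.AtPrime p := Localization.localRingHom (mAt y) p π hp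
  have hf0 : Function.Surjective f0 := by
    intro z
    obtain ⟨a, s, rfl⟩ := IsLocalization.exists_mk'_eq p.primeCompl z
    obtain ⟨a', rfl⟩ := hπ a
    obtain ⟨s', hs'⟩ := hπ s
    have hs1 : s' ∈ (mAt y).primeCompl := by
      intro h
      rw [SetLike.mem_coe, hp, Ideal.mem_comap, hs'] at h
      exact s.2 h
    refine ⟨IsLocalization.mk' A a' ⟨s', hs1⟩, ?_⟩
    rw [Localization.localRingHom_mk']
    congr 1
    exact Subtype.ext hs'
  have hf0J : ∀ a ∈ J, f0 a = 0 := by
    intro a ha
    have : J ≤ RingHom.ker f0 := by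
      rw [hJ, Ideal.map_le_iff_le_comap, Ideal.span_le]
      rintro _ ⟨i, rfl⟩
      show f0 (algebraMap _ A (P i)) = 0
      rw [Localization.localRingHom_to_map, hP i, map_zero]
    exact this ha
  obtain ⟨h1, h2⟩ := key_aux hJm hgm hm f0 hf0 hf0J
  refine ⟨h1, fun hd Q hQ => ?_⟩
  have h6 : algebraMap _ A Q ∈ J := by
    refine h2 hd _ ?_
    rw [Localization.localRingHom_to_map, hQ, map_zero]
  rw [hJ, IsLocalization.mem_map_algebraMap_iff (mAt y).primeCompl A] at h6
  obtain ⟨⟨a, s⟩, hs⟩ := h6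
  simp only at hs
  rw [← map_mul] at hs
  have h7 : Function.Injective (algebraMap (MvPolynomial (Fin N) ℂ) A) :=
    IsLocalization.injective A (mAt y).primeCompl_le_nonZeroDivisors
  have h8 := h7 hs
  refine ⟨s, fun h => s.2 (mem_mAt.mpr h), ?_⟩
  rw [mul_comm, h8]
  exact a.2

omit [Algebra ℂ R] in
/-- Regular parameters in the ring itself. -/
theorem exists_parameters [IsNoetherianRing R] (p : Ideal R) [p.IsPrime] {d : ℕ}
    (hreg : IsRegularLocalRing (Localization.AtPrime p))
    (hd : ringKrullDim (Localization.AtPrime p) = d) :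
    ∃ x : Fin d → R, (∀ i, x i ∈ p) ∧
      ∀ r ∈ p, ∃ s, s ∉ p ∧ s * r ∈ Ideal.span (Set.range x) := by
  classical
  set L := Localization.AtPrime p with hL
  have h1 : (maximalIdeal L).spanFinrank = d := by
    have := (isRegularLocalRing_iff L).mp hreg
    rw [hd] at this
    exact_mod_cast this
  have hfg : Submodule.FG (maximalIdeal L) := IsNoetherian.noetherian _
  obtain ⟨t, ht, hspan⟩ := Submodule.FG.exists_span_finset_card_eq_spanFinrank hfg
  rw [h1] at ht
  let e : Fin d ≃ t := (t.equivFinOfCardEq ht).symm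
  have hex : ∀ i, ∃ (a : R) (s : p.primeCompl), IsLocalization.mk' L a s = (e i : L) := by
    intro i
    exact IsLocalization.exists_mk'_eq p.primeCompl _
  choose x s hx using hex
  have hx' : ∀ i, algebraMap R L (x i) = algebraMap R L (s i) * (e i : L) := by
    intro i
    rw [← hx i, mul_comm, IsLocalization.mk'_spec]
  have hmem : ∀ i, (e i : L) ∈ maximalIdeal L := by
    intro i
    rw [← hspan]
    exact Ideal.subset_span (e i).2
  have hle : maximalIdeal L ≤ (Ideal.span (Set.range x)).map (algebraMap R L) := by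
    rw [← hspan]
    refine Ideal.span_le.mpr fun z hz => ?_
    obtain ⟨i, hi⟩ := e.surjective ⟨z, hz⟩
    have hz' : z = (e i : L) := by rw [hi]
    have hu : IsUnit (algebraMap R L (s i)) := IsLocalization.map_units L (s i)
    obtain ⟨u, hu⟩ := hu
    have h3 : z = ↑u⁻¹ * algebraMap R L (x i) := by
      rw [hx' i, ← hu, hz', ← mul_assoc, Units.inv_mul, one_mul]
    rw [SetLike.mem_coe, h3]
    exact Ideal.mul_mem_left _ _ (Ideal.mem_map_of_mem _ (Ideal.subset_span ⟨i, rfl⟩))
  refine ⟨x, fun i => ?_, fun r hr => ?_⟩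
  · have h4 : algebraMap R L (x i) ∈ maximalIdeal L := by
      rw [hx' i]; exact Ideal.mul_mem_left _ _ (hmem i)
    exact (IsLocalization.AtPrime.to_map_mem_maximal_iff L p (x i)).mp h4
  · have h4 : algebraMap R L r ∈ maximalIdeal L :=
      (IsLocalization.AtPrime.to_map_mem_maximal_iff L p r).mpr hr
    have h5 := hle h4
    rw [IsLocalization.mem_map_algebraMap_iff p.primeCompl L] at h5
    obtain ⟨⟨a, s⟩, hs⟩ := h5
    simp only at hs
    rw [← map_mul] at hs
    have h7 : Function.Injective (algebraMap R L) :=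
      IsLocalization.injective L p.primeCompl_le_nonZeroDivisors
    have h8 := h7 hs
    refine ⟨s, s.2, ?_⟩
    rw [mul_comm, h8]
    exact a.2

end Key

end Vale.Agent.P271.H879
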