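import Mathlib

/-! P271 (helper879): the inverse function theorem, complex case, in a directly usable form, and
zero sets of holomorphic functions are null. -/

open Set Filter Topology MeasureTheory Metric

namespace Vale.Agent.P271.H879

/-- Inverse function theorem for complex `C^1` maps, with all the data. -/
theorem exists_local_inverse {E F : Type*} [NormedAddCommGroup E] [NormedSpace ℂ E]
    [CompleteSpace E] [NormedAddCommGroup F] [NormedSpace ℂ F] {Φ : E → F} {y : E}
    (hΦ : ContDiffAt ℂ 1 Φ y) (e : E ≃L[ℂ] F) (he : HasFDerivAt Φ (e : E →L[ℂ] F) y) :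
    ∃ (ρ : ℝ) (g : F → E) (O : Set E), 0 < ρ ∧ g (Φ y) = y ∧ IsOpen O ∧ y ∈ O ∧
      DifferentiableOn ℂ g (ball (Φ y) ρ) ∧
      (∀ u ∈ ball (Φ y) ρ, Φ (g u) = u ∧ g u ∈ O) ∧
      ∀ x ∈ O, Φ x ∈ ball (Φ y) ρ ∧ g (Φ x) = x := by
  set P := hΦ.toOpenPartialHomeomorph Φ he (by norm_num) with hP
  have hy : y ∈ P.source := hΦ.mem_toOpenPartialHomeomorph_source he (by norm_num)
  have hcoe : (P : E → F) = Φ := hΦ.toOpenPartialHomeomorph_coe he (by norm_num)
  have hinv : ContDiffAt ℂ 1 P.symm (Φ y) := hΦ.to_localInverse he (by norm_num)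
  have hev : ∀ᶠ u in 𝓝 (Φ y), DifferentiableAt ℂ P.symm u := by
    filter_upwards [hinv.eventually (by norm_num)] with u hu
    exact hu.differentiableAt (by norm_num)
  have htgt : P.target ∈ 𝓝 (Φ y) := by
    refine P.open_target.mem_nhds ?_
    have := P.map_source hy
    rwa [hcoe] at this
  obtain ⟨ρ, hρ, hball⟩ := Metric.mem_nhds_iff.mp (hev.and htgt)
  have hball1 : ball (Φ y) ρ ⊆ P.target := fun u hu => (hball hu).2
  refine ⟨ρ, P.symm, P.source ∩ Φ ⁻¹' (ball (Φ y) ρ), hρ, ?_, ?_, ?_, ?_, ?_, ?_⟩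
  · have := P.left_inv hy
    rwa [hcoe] at this
  · have := P.isOpen_inter_preimage (isOpen_ball (x := Φ y) (ε := ρ))
    rwa [hcoe] at this
  · exact ⟨hy, mem_ball_self hρ⟩
  · intro u hu
    exact (hball hu).1.differentiableWithinAt
  · intro u hu
    have h1 := P.right_inv (hball1 hu)
    rw [hcoe] at h1
    refine ⟨h1, P.map_target (hball1 hu), ?_⟩
    rw [mem_preimage, h1]
    exact hu
  · intro x hx
    refine ⟨hx.2, ?_⟩
    have := P.left_inv hx.1
    rwa [hcoe] at this

end Vale.Agent.P271.H879
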