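import Mathlib
import Vale.Agent.P268.Hol
import Vale.Agent.P271.Dens.Dens
import Vale.Agent.P271.H741.Chart
import Vale.Agent.P271.H879.Alg
import Vale.Agent.P271.H879.Ift

/-! P271 (helper879), block CHART: analytic charts at the regular points of an affine domain. -/

open MvPolynomial IsLocalRing Filter Topology Metric

namespace Vale.Agent.P271.H879

open Vale.Agent.P271.H741

/-! ### Polynomials as holomorphic functions -/

theorem contDiff_eval {N : ℕ} (P : MvPolynomial (Fin N) ℂ) {k : WithTop ℕ∞} :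
    ContDiff ℂ k (fun x : Fin N → ℂ => eval x P) := by
  induction P using MvPolynomial.induction_on with
  | C a => simpa using (contDiff_const : ContDiff ℂ k fun _ : Fin N → ℂ => a)
  | add p q hp hq => simpa using hp.add hq
  | mul_X p i hp => simpa using hp.mul (contDiff_apply ℂ ℂ i)

/-- The differential of a polynomial as a continuous linear form. -/
noncomputable def dL {N : ℕ} (P : MvPolynomial (Fin N) ℂ) (x : Fin N → ℂ) :
    (Fin N → ℂ) →L[ℂ] ℂ :=
  ∑ i, dAt x P i • (ContinuousLinearMap.proj i : (Fin N → ℂ) →L[ℂ] ℂ)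

theorem dL_apply {N : ℕ} (P : MvPolynomial (Fin N) ℂ) (x v : Fin N → ℂ) :
    dL P x v = ∑ i, dAt x P i * v i := by
  simp [dL]

theorem hasFDerivAt_eval {N : ℕ} (P : MvPolynomial (Fin N) ℂ) (x : Fin N → ℂ) :
    HasFDerivAt (fun x : Fin N → ℂ => eval x P) (dL P x) x := by
  induction P using MvPolynomial.induction_on with
  | C a =>
    simp only [eval_C]
    refine (hasFDerivAt_const a x).congr_fderiv ?_
    ext v
    simp [dL_apply, dAt_C]
  | add p q hp hq =>
    have h1 : HasFDerivAt (fun x : Fin N → ℂ => eval x p + eval x q) (dL p x + dL q x) x :=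
      hp.add hq
    simp only [map_add]
    refine h1.congr_fderiv ?_
    ext v
    simp [dL_apply, add_mul, Finset.sum_add_distrib]
  | mul_X p i hp =>
    have h0 : HasFDerivAt (fun x : Fin N → ℂ => x i)
        (ContinuousLinearMap.proj i : (Fin N → ℂ) →L[ℂ] ℂ) x :=
      (ContinuousLinearMap.proj i : (Fin N → ℂ) →L[ℂ] ℂ).hasFDerivAt
    have h1 : HasFDerivAt (fun x : Fin N → ℂ => eval x p * x i)
        (eval x p • (ContinuousLinearMap.proj i : (Fin N → ℂ) →L[ℂ] ℂ) + x i • dL p x) x :=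
      hp.mul h0
    simp only [map_mul, eval_X]
    refine h1.congr_fderiv ?_
    ext v
    simp only [FunLike.coe_smul, add_apply, Pi.smul_apply, ContinuousLinearMap.proj_apply,
      smul_eq_mul, dL_apply, dAt_mul, dAt_X, Pi.add_apply, eval_X, Finset.mul_sum]
    simp only [add_mul, Finset.sum_add_distrib]
    congr 1
    · rw [Finset.sum_eq_single i]
      · simp
      · intro b _ hb
        simp [hb]
      · simp
    · refine Finset.sum_congr rfl fun j _ => ?_
      ring

/-! ### The algebraic data at a regular point -/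

section Data

variable {R : Type} [CommRing R] [IsDomain R] [Algebra ℂ R]

omit [IsDomain R] in
/-- Equations and coordinates at a regular point. -/
theorem exists_data {N : ℕ} (π : MvPolynomial (Fin N) ℂ →ₐ[ℂ] R) (hπ : Function.Surjective π)
    (φ : R →ₐ[ℂ] ℂ) (p : Ideal R) [p.IsPrime] (hp : ∀ r, r ∈ p ↔ φ r = 0) {d : ℕ}
    (hd : ringKrullDim (Localization.AtPrime p) = d) {x : Fin d → R} (hx : ∀ i, x i ∈ p)
    (hgen : ∀ r ∈ p, ∃ s, s ∉ p ∧ s * r ∈ Ideal.span (Set.range x)) {y : Fin N → ℂ}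
    (hy : ∀ Q, φ (π Q) = eval y Q) :
    ∃ (k : ℕ) (X : Fin d → MvPolynomial (Fin N) ℂ) (P : Fin k → MvPolynomial (Fin N) ℂ),
      d + k = N ∧ (∀ i, π (X i) = x i) ∧ (∀ j, π (P j) = 0) ∧
      Submodule.span ℂ (Set.range (Sum.elim (fun i => dAt y (X i)) fun j => dAt y (P j))) = ⊤ ∧
      ∃ S, eval y S ≠ 0 ∧ ∀ Q, π Q = 0 → S * Q ∈ Ideal.span (Set.range P) := by
  classical
  have hNoeth : IsNoetherianRing R := isNoetherianRing_of_surjective _ _ π.toRingHom hπ
  have hp' : mAt y = p.comap π.toRingHom := by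
    ext Q
    rw [mem_mAt, Ideal.mem_comap, hp]
    show _ ↔ φ (π Q) = 0
    rw [hy]
  choose Xt hXt using fun i => hπ (x i)
  have hXt0 : ∀ i, eval y (Xt i) = 0 := by
    intro i
    rw [← hy, hXt, ← hp]
    exact hx i
  let I : Ideal (MvPolynomial (Fin N) ℂ) := RingHom.ker π.toRingHom
  have hI : ∀ Q, Q ∈ I ↔ π Q = 0 := fun Q => Iff.rfl
  let DI : Submodule ℂ (Fin N → ℂ) := (I.restrictScalars ℂ).map (dAt y)
  let b := Module.finBasis ℂ DI
  have hPex : ∀ j, ∃ P, π P = 0 ∧ dAt y P = (b j : Fin N → ℂ) := by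
    intro j
    obtain ⟨P, hP, hP'⟩ := Submodule.mem_map.mp (b j).2
    exact ⟨P, hP, hP'⟩
  choose P hP0 hPb using hPex
  have hDI : DI = Submodule.span ℂ (Set.range fun j => dAt y (P j)) := by
    have h1 : (fun j => dAt y (P j)) = DI.subtype ∘ b := by
      funext j; exact hPb j
    rw [h1, Set.range_comp, ← Submodule.map_span, b.span_eq, Submodule.map_top,
      Submodule.range_subtype]
  -- the differentials of the parameters and of the equations span
  have hspan : Submodule.span ℂ (Set.range fun i => dAt y (Xt i)) ⊔ DI = ⊤ := by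
    rw [eq_top_iff, ← Pi.basisFun ℂ (Fin N) |>.span_eq, Submodule.span_le]
    rintro _ ⟨j, rfl⟩
    rw [Pi.basisFun_apply, SetLike.mem_coe]
    have h1 : φ (π (MvPolynomial.X j - C (y j))) = 0 := by rw [hy]; simp
    obtain ⟨s, hs, hs'⟩ := hgen _ ((hp _).mpr h1)
    obtain ⟨S, rfl⟩ := hπ s
    obtain ⟨c, hc⟩ := (Submodule.mem_span_range_iff_exists_fun R).mp hs'
    choose Cc hCc using fun i => hπ (c i)
    have h2 : S * (MvPolynomial.X j - C (y j)) - ∑ i, Cc i * Xt i ∈ I := by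
      rw [hI, map_sub, map_mul, map_sum, ← hc]
      simp only [map_mul, hCc, hXt, smul_eq_mul, sub_self]
    have h3 : dAt y (S * (MvPolynomial.X j - C (y j)) - ∑ i, Cc i * Xt i) ∈ DI :=
      Submodule.mem_map_of_mem h2
    have h4 : dAt y (S * (MvPolynomial.X j - C (y j)) - ∑ i, Cc i * Xt i) =
        eval y S • Pi.single j (1 : ℂ) - ∑ i, eval y (Cc i) • dAt y (Xt i) := by
      rw [map_sub, map_sum, dAt_mul, map_sub, dAt_X, dAt_C, sub_zero]
      simp only [dAt_mul, hXt0, zero_smul, add_zero]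
      simp
    rw [h4] at h3
    have hS : eval y S ≠ 0 := by
      rw [← hy]
      intro h
      exact hs ((hp _).mpr h)
    have h5 : Pi.single j (1 : ℂ) = (eval y S)⁻¹ • (∑ i, eval y (Cc i) • dAt y (Xt i) +
        (eval y S • Pi.single j (1 : ℂ) - ∑ i, eval y (Cc i) • dAt y (Xt i))) := by
      rw [add_sub_cancel, smul_smul, inv_mul_cancel₀ hS, one_smul]
    rw [h5]
    refine Submodule.smul_mem _ _ (Submodule.add_mem_sup ?_ h3)
    exact Submodule.sum_mem _ fun i _ => Submodule.smul_mem _ _ (Submodule.subset_span ⟨i, rfl⟩)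
  -- a subfamily of the parameters
  obtain ⟨κ, a, ha, hsp, hli⟩ :=
    exists_linearIndependent' ℂ (fun i => DI.mkQ (dAt y (Xt i)))
  have hfin : Finite κ := Finite.of_injective a ha
  let _ : Fintype κ := Fintype.ofFinite κ
  have hq : Submodule.span ℂ (Set.range fun i => DI.mkQ (dAt y (Xt i))) = ⊤ := by
    have h1 : (fun i => DI.mkQ (dAt y (Xt i))) = DI.mkQ ∘ fun i => dAt y (Xt i) := rfl
    rw [h1, Set.range_comp, ← Submodule.map_span, eq_top_iff]
    rintro z -
    obtain ⟨v, rfl⟩ := DI.mkQ_surjective z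
    have hv : v ∈ Submodule.span ℂ (Set.range fun i => dAt y (Xt i)) ⊔ DI := by
      rw [hspan]; trivial
    obtain ⟨v1, hv1, v2, hv2, rfl⟩ := Submodule.mem_sup.mp hv
    refine ⟨v1, hv1, ?_⟩
    rw [map_add]
    have : DI.mkQ v2 = 0 := by simpa using hv2
    rw [this, add_zero]
  rw [hq] at hsp
  have hcard : Fintype.card κ = Module.finrank ℂ ((Fin N → ℂ) ⧸ DI) :=
    (Module.finrank_eq_card_basis (Module.Basis.mk hli hsp.ge)).symm
  have hN : Fintype.card κ + Module.finrank ℂ DI = N := by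
    rw [hcard, Submodule.finrank_quotient_add_finrank, Module.finrank_fin_fun]
  have hle : Fintype.card κ ≤ d := by
    simpa using Fintype.card_le_of_injective a ha
  have hsp2 : Submodule.span ℂ (Set.range (Sum.elim (fun i : κ => dAt y (Xt (a i)))
      (fun j => dAt y (P j)))) = ⊤ := by
    rw [Set.Sum.elim_range, Submodule.span_union, ← hDI, eq_top_iff]
    rintro v -
    have h1 : DI.mkQ v ∈ Submodule.span ℂ (Set.range ((fun i => DI.mkQ (dAt y (Xt i))) ∘ a)) := by
      rw [hsp]; trivial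
    have h2 : (fun i => DI.mkQ (dAt y (Xt i))) ∘ a = DI.mkQ ∘ fun i : κ => dAt y (Xt (a i)) := rfl
    rw [h2, Set.range_comp, ← Submodule.map_span] at h1
    obtain ⟨w, hw, hw'⟩ := Submodule.mem_map.mp h1
    have h3 : v - w ∈ DI := by
      rw [← Submodule.Quotient.mk_eq_zero, Submodule.Quotient.mk_sub]
      rw [Submodule.mkQ_apply, Submodule.mkQ_apply] at hw'
      rw [hw', sub_self]
    have h4 : v = w + (v - w) := by abel
    rw [h4]
    exact Submodule.add_mem_sup hw h3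
  obtain ⟨hk1, hk2⟩ := key (κ := κ) π.toRingHom hπ p hp' (fun i => hXt0 (a i))
    (fun j => hP0 j) hsp2
  rw [hd] at hk1 hk2
  have hk1' : d ≤ Fintype.card κ := by exact_mod_cast hk1
  have hdk : Fintype.card κ = d := le_antisymm hle hk1'
  have hk3 := hk2 (by rw [hdk])
  have hab : Function.Bijective a := by
    refine (Fintype.bijective_iff_injective_and_card a).mpr ⟨ha, ?_⟩
    rw [hdk, Fintype.card_fin]
  refine ⟨_, Xt, P, ?_, hXt, hP0, ?_, ?_⟩
  · rw [← hdk]; exact hN
  · rw [← hsp2]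
    congr 1
    ext v
    constructor
    · rintro ⟨i | j, rfl⟩
      · obtain ⟨i', rfl⟩ := hab.surjective i
        exact ⟨Sum.inl i', rfl⟩
      · exact ⟨Sum.inr j, rfl⟩
    · rintro ⟨i | j, rfl⟩
      · exact ⟨Sum.inl (a i), rfl⟩
      · exact ⟨Sum.inr j, rfl⟩
  · -- a common denominator
    obtain ⟨G, hG⟩ := (IsNoetherian.noetherian I : Submodule.FG I)
    have hGI : ∀ Q ∈ G, π Q = 0 := by
      intro Q hQ
      rw [← hI, ← hG]
      exact Submodule.subset_span hQ
    choose! s hs hs' using fun Q (hQ : π Q = 0) => hk3 Q hQ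
    refine ⟨∏ Q ∈ G, s Q, ?_, fun Q hQ => ?_⟩
    · rw [map_prod, Finset.prod_ne_zero_iff]
      exact fun Q hQ => hs Q (hGI Q hQ)
    · have hQ' : Q ∈ Submodule.span (MvPolynomial (Fin N) ℂ) (G : Set (MvPolynomial (Fin N) ℂ)) := by
        rw [hG]; exact hQ
      induction hQ' using Submodule.span_induction with
      | mem Q hQG =>
        rw [← Finset.prod_erase_mul G s hQG, mul_assoc]
        exact Ideal.mul_mem_left _ _ (hs' Q (hGI Q hQG))
      | zero => simp
      | add u v hu hv hu' hv' =>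
        rw [mul_add]
        have h1 : u ∈ I := by rw [← hG]; exact hu
        have h2 : v ∈ I := by rw [← hG]; exact hv
        exact Ideal.add_mem _ (hu' h1) (hv' h2)
      | smul c u hu hu' =>
        have h1 : u ∈ I := by rw [← hG]; exact hu
        rw [smul_eq_mul, mul_left_comm]
        exact Ideal.mul_mem_left _ _ (hu' h1)

omit [IsDomain R] in
/-- The point of the variety given by a common zero of the equations. -/
theorem exists_pt {N : ℕ} (π : MvPolynomial (Fin N) ℂ →ₐ[ℂ] R) (hπ : Function.Surjective π)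
    {w : Fin N → ℂ} (hw : ∀ Q, π Q = 0 → eval w Q = 0) :
    ∃ χ : R →ₐ[ℂ] ℂ, ∀ Q, χ (π Q) = eval w Q := by
  have hI : ∀ a ∈ RingHom.ker π, (aeval w : MvPolynomial (Fin N) ℂ →ₐ[ℂ] ℂ) a = 0 := by
    intro Q hQ
    rw [aeval_eq_eval]
    exact hw Q hQ
  refine ⟨(Ideal.Quotient.liftₐ (RingHom.ker π) (aeval w) hI).comp
    (Ideal.quotientKerAlgEquivOfSurjective hπ).symm.toAlgHom, fun Q => ?_⟩
  have h1 : (Ideal.quotientKerAlgEquivOfSurjective hπ).symm (π Q) =
      Ideal.Quotient.mk (RingHom.ker π) Q := by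
    rw [AlgEquiv.symm_apply_eq]
    rfl
  show Ideal.Quotient.liftₐ (RingHom.ker π) (aeval w) hI
    ((Ideal.quotientKerAlgEquivOfSurjective hπ).symm (π Q)) = eval w Q
  rw [h1]
  show aeval w Q = eval w Q
  rw [aeval_eq_eval]

end Data

/-! ### The chart -/

section Chart

variable {R : Type} [CommRing R] [IsDomain R] [Algebra ℂ R]

/-- A linear map given by a spanning family of functionals is injective. -/
theorem injective_of_span {N : ℕ} {ι : Type*} {v : ι → (Fin N → ℂ)}
    (hsp : Submodule.span ℂ (Set.range v) = ⊤) {u : Fin N → ℂ}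
    (hu : ∀ i, ∑ j, v i j * u j = 0) : u = 0 := by
  have h1 : ∀ w : Fin N → ℂ, ∑ j, w j * u j = 0 := by
    intro w
    have hw : w ∈ Submodule.span ℂ (Set.range v) := by rw [hsp]; trivial
    induction hw using Submodule.span_induction with
    | mem w hw => obtain ⟨i, rfl⟩ := hw; exact hu i
    | zero => simp
    | add a b _ _ ha hb =>
      simp only [Pi.add_apply, add_mul, Finset.sum_add_distrib, ha, hb, add_zero]
    | smul c a _ ha =>
      simp only [Pi.smul_apply, smul_eq_mul, mul_assoc, ← Finset.mul_sum, ha, mul_zero]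
  funext j
  have := h1 (Pi.single j 1)
  rw [Finset.sum_eq_single j] at this
  · simpa using this
  · intro b _ hb; simp [hb]
  · simp

/-- **Existence of charts.** A point of an affine domain has an analytic chart by any given
regular parameters. -/
theorem exists_chart_of_parameters [Algebra.FiniteType ℂ R] (φ : R →ₐ[ℂ] ℂ) (p : Ideal R)
    [p.IsPrime] (hp : ∀ r, r ∈ p ↔ φ r = 0) {d : ℕ}
    (hd : ringKrullDim (Localization.AtPrime p) = d) {x : Fin d → R} (hx : ∀ i, φ (x i) = 0)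
    (hgen : ∀ r, φ r = 0 → ∃ s, φ s ≠ 0 ∧ s * r ∈ Ideal.span (Set.range x)) :
    ∃ c : Chart φ d, c.t = x := by
  classical
  obtain ⟨N, π, hπ⟩ := Algebra.FiniteType.iff_quotient_mvPolynomial''.mp
    (inferInstance : Algebra.FiniteType ℂ R)
  set y : Fin N → ℂ := fun j => φ (π (MvPolynomial.X j)) with hy0
  have hy : ∀ Q, φ (π Q) = eval y Q := by
    intro Q
    have h1 : φ.comp π = aeval y := by
      apply MvPolynomial.algHom_ext
      intro j
      simp [hy0]
    have h2 := DFunLike.congr_fun h1 Q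
    rw [aeval_eq_eval] at h2
    exact h2
  obtain ⟨k, X, P, hN, hXx, hP0, hsp, S, hS, hSQ⟩ :=
    exists_data π hπ φ p hp hd (fun i => (hp _).mpr (hx i)) (fun r hr => by
      obtain ⟨s, hs, hs'⟩ := hgen r ((hp r).mp hr)
      exact ⟨s, fun h => hs ((hp s).mp h), hs'⟩) hy
  have hX0 : ∀ i, eval y (X i) = 0 := fun i => by rw [← hy, hXx, hx]
  -- the map
  set Φ : (Fin N → ℂ) → (Fin d → ℂ) × (Fin k → ℂ) :=
    fun w => (fun i => eval w (X i), fun j => eval w (P j)) with hΦ
  have hPy : ∀ j, eval y (P j) = 0 := by intro j; rw [← hy, hP0, map_zero]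
  have hΦy : Φ y = 0 := by
    simp only [hΦ, hX0, hPy]
    rfl
  have hΦc : ContDiff ℂ 1 Φ := by
    refine ContDiff.prodMk ?_ ?_
    · exact contDiff_pi.mpr fun i => contDiff_eval _
    · exact contDiff_pi.mpr fun i => contDiff_eval _
  set L : (Fin N → ℂ) →L[ℂ] (Fin d → ℂ) × (Fin k → ℂ) :=
    (ContinuousLinearMap.pi fun i => dL (X i) y).prod
      (ContinuousLinearMap.pi fun j => dL (P j) y) with hL
  have hΦd : HasFDerivAt Φ L y := by
    refine HasFDerivAt.prodMk ?_ ?_
    · exact hasFDerivAt_pi.mpr fun i => hasFDerivAt_eval _ _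
    · exact hasFDerivAt_pi.mpr fun i => hasFDerivAt_eval _ _
  have hLinj : Function.Injective L := by
    rw [injective_iff_map_eq_zero]
    intro u hu
    refine injective_of_span hsp ?_
    rintro (i | j)
    · have := congrFun (congrArg Prod.fst hu) i
      simpa [hL, dL_apply] using this
    · have := congrFun (congrArg Prod.snd hu) j
      simpa [hL, dL_apply] using this
  have hdim : Module.finrank ℂ (Fin N → ℂ) = Module.finrank ℂ ((Fin d → ℂ) × (Fin k → ℂ)) := by
    simp [hN]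
  let e : (Fin N → ℂ) ≃L[ℂ] (Fin d → ℂ) × (Fin k → ℂ) :=
    (LinearEquiv.ofInjectiveOfFinrankEq L.toLinearMap hLinj hdim).toContinuousLinearEquiv
  have he : HasFDerivAt Φ (e : (Fin N → ℂ) →L[ℂ] (Fin d → ℂ) × (Fin k → ℂ)) y := by
    refine hΦd.congr_fderiv ?_
    ext v <;> rfl
  obtain ⟨ρ, g, O, hρ, hgy, hO, hyO, hgd, hg, hg'⟩ :=
    exists_local_inverse hΦc.contDiffAt e he
  rw [hΦy] at hgy hgd hg hg'
  -- the parametrisation
  let h : (Fin d → ℂ) → (Fin N → ℂ) := fun ξ => g (ξ, 0)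
  have hemb : ∀ ξ : Fin d → ℂ, ξ ∈ ball (0 : Fin d → ℂ) ρ →
      ((ξ, 0) : (Fin d → ℂ) × (Fin k → ℂ)) ∈ ball (0 : (Fin d → ℂ) × (Fin k → ℂ)) ρ := by
    intro ξ hξ
    rw [mem_ball_zero_iff] at hξ ⊢
    rw [Prod.norm_mk, norm_zero]
    exact max_lt hξ hρ
  have hhd : DifferentiableOn ℂ h (ball 0 ρ) := by
    refine hgd.comp (DifferentiableOn.prodMk differentiableOn_id (differentiableOn_const _)) ?_
    intro ξ hξ
    exact hemb ξ hξ
  have hh0 : h 0 = y := hgy
  have hSc : ContinuousAt (fun ξ => eval (h ξ) S) 0 := by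
    have h1 : ContinuousAt h 0 :=
      (hhd.continuousOn).continuousAt (ball_mem_nhds _ hρ)
    have h2 : Continuous fun w : Fin N → ℂ => eval w S := (contDiff_eval (k := 0) S).continuous
    exact h2.continuousAt.comp h1
  have hSe : ∀ᶠ ξ in 𝓝 (0 : Fin d → ℂ), eval (h ξ) S ≠ 0 := by
    refine hSc.eventually_ne ?_
    rw [hh0]; exact hS
  obtain ⟨ρ', hρ', hball⟩ := Metric.mem_nhds_iff.mp (hSe.and (ball_mem_nhds _ hρ))
  have hb1 : ∀ ξ ∈ ball (0 : Fin d → ℂ) ρ', eval (h ξ) S ≠ 0 := fun ξ hξ => (hball hξ).1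
  have hb2 : ∀ ξ ∈ ball (0 : Fin d → ℂ) ρ', ξ ∈ ball (0 : Fin d → ℂ) ρ :=
    fun ξ hξ => (hball hξ).2
  have hb3 : ∀ ξ ∈ ball (0 : Fin d → ℂ) ρ', (∀ i, eval (h ξ) (X i) = ξ i) ∧
      ∀ j, eval (h ξ) (P j) = 0 := by
    intro ξ hξ
    have h1 := (hg _ (hemb ξ (hb2 ξ hξ))).1
    constructor
    · intro i
      exact congrFun (congrArg Prod.fst h1) i
    · intro j
      exact congrFun (congrArg Prod.snd h1) j
  have hzero : ∀ w : Fin N → ℂ, (∀ j, eval w (P j) = 0) → ∀ Q ∈ Ideal.span (Set.range P),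
      eval w Q = 0 := by
    intro w hw Q hQ
    have h1 : Ideal.span (Set.range P) ≤ mAt w := by
      rw [Ideal.span_le]
      rintro _ ⟨j, rfl⟩
      exact hw j
    exact h1 hQ
  have hb4 : ∀ ξ ∈ ball (0 : Fin d → ℂ) ρ', ∃ χ : R →ₐ[ℂ] ℂ, ∀ Q, χ (π Q) = eval (h ξ) Q := by
    intro ξ hξ
    refine exists_pt π hπ fun Q hQ => ?_
    have h1 := hzero (h ξ) (hb3 ξ hξ).2 _ (hSQ Q hQ)
    rw [map_mul] at h1
    exact (mul_eq_zero.mp h1).resolve_left (hb1 ξ hξ)
  let ψ : (Fin d → ℂ) → (R →ₐ[ℂ] ℂ) := fun ξ =>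
    if hξ : ξ ∈ ball (0 : Fin d → ℂ) ρ' then (hb4 ξ hξ).choose else φ
  have hψ : ∀ ξ ∈ ball (0 : Fin d → ℂ) ρ', ∀ Q, ψ ξ (π Q) = eval (h ξ) Q := by
    intro ξ hξ Q
    simp only [ψ, dif_pos hξ]
    exact (hb4 ξ hξ).choose_spec Q
  have hext : ∀ χ χ' : R →ₐ[ℂ] ℂ, (∀ Q, χ (π Q) = χ' (π Q)) → χ = χ' := by
    intro χ χ' h1
    ext a
    obtain ⟨Q, rfl⟩ := hπ a
    exact h1 Q
  refine ⟨{ ψ := ψ, ρ := ρ', ρ_pos := hρ', zero := ?_, holo := ?_, t := x,
            coord := ?_, nhd := ?_ }, rfl⟩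
  · refine hext _ _ fun Q => ?_
    rw [hψ 0 (mem_ball_self hρ'), hh0, hy]
  · intro a
    obtain ⟨Q, rfl⟩ := hπ a
    refine Vale.Agent.P268.analyticOnNhd_of_differentiableOn isOpen_ball ?_
    have h1 : DifferentiableOn ℂ (fun ξ => eval (h ξ) Q) (ball 0 ρ') := by
      have h2 : Differentiable ℂ fun w : Fin N → ℂ => eval w Q :=
        (contDiff_eval (k := 1) Q).differentiable (by norm_num)
      exact h2.comp_differentiableOn (hhd.mono hb2)
    exact h1.congr fun ξ hξ => hψ ξ hξ Q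
  · intro ξ hξ i
    rw [← hXx i, hψ ξ hξ]
    exact (hb3 ξ hξ).1 i
  · have hO' : ∀ᶠ w in 𝓝 y, w ∈ O ∧ Φ w ∈ ball (0 : (Fin d → ℂ) × (Fin k → ℂ)) ρ' := by
      have h1 : ∀ᶠ w in 𝓝 y, w ∈ O := hO.mem_nhds hyO
      refine h1.and ?_
      refine hΦc.continuous.continuousAt.eventually_mem ?_
      rw [hΦy]
      exact ball_mem_nhds _ hρ'
    obtain ⟨δ, hδ, hδ'⟩ := Metric.eventually_nhds_iff.mp hO'
    refine ⟨Finset.univ.image fun j => π (MvPolynomial.X j), δ, hδ, fun χ hχ => ?_⟩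
    set w : Fin N → ℂ := fun j => χ (π (MvPolynomial.X j)) with hw
    have hχw : ∀ Q, χ (π Q) = eval w Q := by
      intro Q
      have h1 : χ.comp π = aeval w := by
        apply MvPolynomial.algHom_ext
        intro j
        simp [hw]
      have h2 := DFunLike.congr_fun h1 Q
      rw [aeval_eq_eval] at h2
      exact h2
    have hwy : dist w y < δ := by
      rw [dist_pi_lt_iff hδ]
      intro j
      rw [dist_eq_norm]
      exact hχ _ (Finset.mem_image_of_mem _ (Finset.mem_univ j))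
    obtain ⟨hwO, hwΦ⟩ := hδ' hwy
    have hwP : ∀ j, eval w (P j) = 0 := by
      intro j
      rw [← hχw, hP0, map_zero]
    have hΦw : Φ w = (fun i => eval w (X i), 0) := by
      simp only [hΦ, hwP]
      rfl
    have hξ : (fun i => eval w (X i)) ∈ ball (0 : Fin d → ℂ) ρ' := by
      rw [hΦw, mem_ball_zero_iff, Prod.norm_mk] at hwΦ
      rw [mem_ball_zero_iff]
      exact lt_of_le_of_lt (le_max_left _ _) hwΦ
    have hhw : h (fun i => eval w (X i)) = w := by
      have h1 := (hg' w hwO).2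
      rw [hΦw] at h1
      exact h1
    refine ⟨_, hξ, hext _ _ fun Q => ?_⟩
    rw [hψ _ hξ, hhw, hχw]

/-- **Existence of charts.** A regular point of an affine domain has an analytic chart by regular
parameters, which generate the maximal ideal of the local ring. -/
theorem exists_chart [Algebra.FiniteType ℂ R] (φ : R →ₐ[ℂ] ℂ) (p : Ideal R) [p.IsPrime]
    (hp : ∀ r, r ∈ p ↔ φ r = 0) {d : ℕ}
    (hreg : IsRegularLocalRing (Localization.AtPrime p))
    (hd : ringKrullDim (Localization.AtPrime p) = d) :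
    ∃ c : Chart φ d, ∀ r, φ r = 0 → ∃ s, φ s ≠ 0 ∧ s * r ∈ Ideal.span (Set.range c.t) := by
  have hNoeth : IsNoetherianRing R := Algebra.FiniteType.isNoetherianRing ℂ R
  obtain ⟨x, hx, hgen⟩ := exists_parameters p hreg hd
  have hgen' : ∀ r, φ r = 0 → ∃ s, φ s ≠ 0 ∧ s * r ∈ Ideal.span (Set.range x) := by
    intro r hr
    obtain ⟨s, hs, hs'⟩ := hgen r ((hp r).mpr hr)
    exact ⟨s, fun h => hs ((hp s).mpr h), hs'⟩
  obtain ⟨c, hc⟩ := exists_chart_of_parameters φ p hp hd (fun i => (hp _).mp (hx i)) hgen'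
  exact ⟨c, by rw [hc]; exact hgen'⟩

/-- Nonzero functions do not vanish identically near any point of a chart. -/
theorem chart_inj [Algebra.FiniteType ℂ R] {φ : R →ₐ[ℂ] ℂ} {d : ℕ} (c : Chart φ d) {f : R}
    (hf : f ≠ 0) {x : Fin d → ℂ} (hx : x ∈ ball (0 : Fin d → ℂ) c.ρ) :
    ¬ ∀ᶠ z in 𝓝 x, c.ψ z f = 0 := by
  intro hcon
  have h1 : ∀ z ∈ ball (0 : Fin d → ℂ) c.ρ, c.ψ z f = 0 := by
    have h2 := (c.holo f).eqOn_zero_of_preconnected_of_eventuallyEq_zero
      (convex_ball _ _).isPreconnected hx hcon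
    exact fun z hz => h2 hz
  obtain ⟨χ, hχ, hχ'⟩ := Dens.dens_alg f hf φ
  obtain ⟨F, ε, hε, hF⟩ := c.nhd
  have h3 : ∀ᶠ j in atTop, ∀ a ∈ F, ‖χ j a - φ a‖ < ε := by
    rw [Filter.eventually_all_finset]
    intro a _
    have := (hχ' a)
    rw [Metric.tendsto_nhds] at this
    filter_upwards [this ε hε] with j hj
    rwa [dist_eq_norm] at hj
  obtain ⟨j, hj⟩ := h3.exists
  obtain ⟨z, hz, hz'⟩ := hF _ hj
  exact hχ j (by rw [← hz']; exact h1 z hz)

end Chart

end Vale.Agent.P271.H879
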