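import Vale.Agent.P271.Sch.Hub
import Vale.Agent.P271.H879.Chart

/-! P271 (helper879), block CHART: charts at the points of a smooth cone. -/

open IsLocalRing Filter Topology Metric

namespace Vale.Agent.P271.H879

open Vale.Agent.P271.H741 Vale.Agent.P271.Sch

variable {n : ℕ} {C : GCone n}

theorem ker_isMaximal (φ : C.Pt) : (RingHom.ker φ).IsMaximal :=
  RingHom.ker_isMaximal_of_surjective φ fun c => ⟨algebraMap ℂ C.R c, by simp⟩

theorem nv_ker {φ : C.Pt} (hφ : GCone.NV φ) : ∃ k > 0, ∃ s ∈ C.A k, s ∉ RingHom.ker φ := by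
  obtain ⟨k, hk, s, hs, h⟩ := hφ
  exact ⟨k, hk, s, hs, h⟩

/-- Charts of smooth cones by given regular parameters. -/
theorem cone_exists_chart_of_parameters {φ : C.Pt} (hφ : GCone.NV φ) {x : Fin (n + 1) → C.R}
    (hx : ∀ i, φ (x i) = 0)
    (hgen : ∀ r, φ r = 0 → ∃ s, φ s ≠ 0 ∧ s * r ∈ Ideal.span (Set.range x)) :
    ∃ c : Chart φ (n + 1), c.t = x := by
  have := ker_isMaximal φ
  have := C.finiteType
  obtain ⟨-, h2⟩ := C.regular (RingHom.ker φ) (nv_ker hφ)
  exact exists_chart_of_parameters φ (RingHom.ker φ) (fun r => Iff.rfl) h2 hx hgen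

/-- Charts of smooth cones by given regular parameters (not centred). -/
theorem cone_exists_chart_of_parameters' {φ : C.Pt} (hφ : GCone.NV φ) (X : Fin (n + 1) → C.R)
    (hX : ∀ r, φ r = 0 → ∃ s, φ s ≠ 0 ∧
      s * r ∈ Ideal.span (Set.range fun j => X j - algebraMap ℂ C.R (φ (X j)))) :
    ∃ c : Chart φ (n + 1), ∀ j, c.t j = X j - algebraMap ℂ C.R (φ (X j)) := by
  obtain ⟨c, hc⟩ := cone_exists_chart_of_parameters hφ (x := fun j => X j - algebraMap ℂ C.R (φ (X j)))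
    (fun i => by simp) hX
  exact ⟨c, fun j => by rw [hc]⟩

/-- Regular parameters at the points of a smooth cone. -/
theorem cone_exists_parameters {φ : C.Pt} (hφ : GCone.NV φ) :
    ∃ x : Fin (n + 1) → C.R, (∀ i, φ (x i) = 0) ∧
      ∀ r, φ r = 0 → ∃ s, φ s ≠ 0 ∧ s * r ∈ Ideal.span (Set.range x) := by
  have := ker_isMaximal φ
  have := C.finiteType
  have : IsNoetherianRing C.R := Algebra.FiniteType.isNoetherianRing ℂ C.R
  obtain ⟨h1, h2⟩ := C.regular (RingHom.ker φ) (nv_ker hφ)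
  obtain ⟨x, hx, hgen⟩ := exists_parameters (RingHom.ker φ) h1 h2
  exact ⟨x, hx, hgen⟩

/-- Charts of smooth cones. -/
theorem cone_exists_chart {φ : C.Pt} (hφ : GCone.NV φ) :
    ∃ c : Chart φ (n + 1),
      ∀ r, φ r = 0 → ∃ s, φ s ≠ 0 ∧ s * r ∈ Ideal.span (Set.range c.t) := by
  obtain ⟨x, hx, hgen⟩ := cone_exists_parameters hφ
  obtain ⟨c, hc⟩ := cone_exists_chart_of_parameters hφ hx hgen
  exact ⟨c, by rw [hc]; exact hgen⟩

end Vale.Agent.P271.H879
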