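import Vale.Agent.P268.Hol

/-! P271 (helper879): the zero set of a holomorphic function on a ball is null. -/

open Set Filter Topology MeasureTheory Metric

namespace Vale.Agent.P271.H879

/-- The zero set of a holomorphic function on a ball which is not identically zero is null. -/
theorem null_zeros {E : Type*} [NormedAddCommGroup E] [NormedSpace ℂ E] [FiniteDimensional ℂ E]
    [MeasurableSpace E] [BorelSpace E] (μ : Measure E) [μ.IsAddHaarMeasure] {f : E → ℂ} {c : E}
    {r : ℝ} (hf : DifferentiableOn ℂ f (ball c r)) {x0 : E} (hx0 : x0 ∈ ball c r)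
    (h0 : f x0 ≠ 0) : μ {x | x ∈ ball c r ∧ f x = 0} = 0 := by
  have : FiniteDimensional ℝ E := FiniteDimensional.complexToReal E
  have : ProperSpace E := FiniteDimensional.proper ℂ E
  have han : AnalyticOnNhd ℂ f (ball c r) :=
    Vale.Agent.P268.analyticOnNhd_of_differentiableOn isOpen_ball hf
  have hcont : ContinuousOn f (ball c r) := hf.continuousOn
  -- the path map
  set q : E × ℝ → E := fun p => x0 + p.2 • (p.1 - x0) with hq
  have hqc : Continuous q := by fun_prop
  have hqmem : ∀ p : E × ℝ, p.1 ∈ ball c r → p.2 ∈ Icc (0 : ℝ) 1 → q p ∈ ball c r := by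
    intro p hp ht
    have := (convex_ball c r) hx0 hp (sub_nonneg.mpr ht.2) ht.1 (by ring)
    have heq : q p = (1 - p.2) • x0 + p.2 • p.1 := by
      simp only [hq, smul_sub, sub_smul, one_smul]
      abel
    rw [heq]
    exact this
  have h1 : ∀ x ∈ ball c r, volume {t : ℝ | t ∈ Ioo (0 : ℝ) 1 ∧ f (q (x, t)) = 0} = 0 := by
    intro x hx
    set V : Set ℝ := {t | q (x, t) ∈ ball c r} with hV
    have hVc : Convex ℝ V := by
      intro s hs t ht a b ha hb hab
      have h2 := (convex_ball c r) (hs : q (x, s) ∈ ball c r) (ht : q (x, t) ∈ ball c r) ha hb hab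
      have h3 : q (x, a • s + b • t) = a • q (x, s) + b • q (x, t) := by
        simp only [hq, smul_eq_mul]
        have : a • (x0 + s • (x - x0)) + b • (x0 + t • (x - x0)) =
            (a + b) • x0 + (a * s + b * t) • (x - x0) := by
          simp only [smul_add, smul_smul, add_smul]
          abel
        rw [this, hab, one_smul]
      show q (x, a • s + b • t) ∈ ball c r
      rw [h3]; exact h2
    have ha : AnalyticOnNhd ℝ (fun t : ℝ => f (q (x, t))) V := by
      intro t ht
      have h1 : AnalyticAt ℝ (fun t : ℝ => x0 + t • (x - x0)) t :=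
        analyticAt_const.add (analyticAt_id.smul analyticAt_const)
      exact AnalyticAt.fun_comp (g := f) (f := fun t : ℝ => x0 + t • (x - x0))
        ((han _ ht).restrictScalars) h1
    have h0V : (0 : ℝ) ∈ V := by
      show q (x, 0) ∈ ball c r
      simpa [hq] using hx0
    have h2 : (fun t : ℝ => f (q (x, t))) 0 ≠ 0 := by simpa [hq] using h0
    have h3 := ha.preimage_zero_mem_codiscreteWithin h2 h0V ⟨⟨0, h0V⟩, hVc.isPreconnected⟩
    have hVm : MeasurableSet V := by
      refine IsOpen.measurableSet ?_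
      exact isOpen_ball.preimage (by fun_prop)
    have h4 := ae_restrict_le_codiscreteWithin (μ := (volume : Measure ℝ)) hVm h3
    rw [mem_ae_iff, Measure.restrict_apply' hVm] at h4
    refine measure_mono_null ?_ h4
    rintro t ⟨ht, ht0⟩
    refine ⟨?_, hqmem (x, t) hx ⟨ht.1.le, ht.2.le⟩⟩
    intro hcon
    exact hcon ht0
  set A : Set (E × ℝ) := ball c r ×ˢ Ioo (0 : ℝ) 1 with hA
  have hAo : IsOpen A := isOpen_ball.prod isOpen_Ioo
  set B : Set (E × ℝ) := {p | p ∈ A ∧ f (q p) = 0} with hB
  have hBm : MeasurableSet B := by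
    have hco : ContinuousOn (fun p => f (q p)) A :=
      hcont.comp hqc.continuousOn (fun p hp => hqmem p hp.1 ⟨hp.2.1.le, hp.2.2.le⟩)
    have h5 : IsOpen (A ∩ (fun p => f (q p)) ⁻¹' {0}ᶜ) :=
      hco.isOpen_inter_preimage hAo isOpen_compl_singleton
    have h6 : B = A \ (A ∩ (fun p => f (q p)) ⁻¹' {0}ᶜ) := by
      ext p
      simp only [hB, mem_ofPred_eq, Set.mem_sdiff, mem_inter_iff, mem_preimage, mem_compl_iff,
        mem_singleton_iff, not_and, not_not]
      constructor
      · rintro ⟨hp, h0⟩; exact ⟨hp, fun _ => h0⟩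
      · rintro ⟨hp, h0⟩; exact ⟨hp, h0 hp⟩
    rw [h6]
    exact hAo.measurableSet.diff h5.measurableSet
  have hB0 : (μ.prod volume) B = 0 := by
    rw [Measure.measure_prod_null hBm]
    filter_upwards with x
    by_cases hx : x ∈ ball c r
    · refine measure_mono_null ?_ (h1 x hx)
      rintro t ⟨ht, ht0⟩
      exact ⟨ht.2, ht0⟩
    · have : Prod.mk x ⁻¹' B = ∅ := by
        ext t
        simp only [mem_preimage, mem_empty_iff_false, iff_false]
        rintro ⟨ht, -⟩
        exact hx ht.1
      rw [this]; simp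
  have hsw : (volume.prod μ) (Prod.swap ⁻¹' B) = 0 := by
    rw [← Measure.map_apply measurable_swap hBm, Measure.prod_swap]
    exact hB0
  have h7 := Measure.measure_ae_null_of_prod_null hsw
  -- good parameters near `1`
  have h8 : ∀ k : ℕ, ∃ t : ℝ, t ∈ Ioo (1 - 1 / ((k : ℝ) + 2)) 1 ∧
      μ {x | x ∈ ball c r ∧ f (q (x, t)) = 0} = 0 := by
    intro k
    have hk : (0 : ℝ) < 1 / ((k : ℝ) + 2) := by positivity
    have hk1 : 1 / ((k : ℝ) + 2) ≤ 1 := by
      rw [div_le_one (by positivity)]
      have : (0 : ℝ) ≤ k := Nat.cast_nonneg k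
      linarith
    have hpos : volume (Ioo (1 - 1 / ((k : ℝ) + 2)) 1) ≠ 0 := by
      rw [Real.volume_Ioo]
      simp only [ne_eq, ENNReal.ofReal_eq_zero, not_le]
      linarith
    have h9 : ∃ t ∈ Ioo (1 - 1 / ((k : ℝ) + 2)) 1, μ (Prod.mk t ⁻¹' (Prod.swap ⁻¹' B)) = 0 := by
      by_contra hcon
      push Not at hcon
      apply hpos
      refine measure_mono_null ?_ (mem_ae_iff.mp h7)
      intro t ht hcc
      exact hcon t ht hcc
    obtain ⟨t, ht, ht0⟩ := h9
    refine ⟨t, ht, measure_mono_null ?_ ht0⟩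
    rintro x ⟨hx, hx0⟩
    have h10 : (0 : ℝ) < t := by have := ht.1; linarith
    exact ⟨⟨hx, h10, ht.2⟩, hx0⟩
  choose t ht ht0 using h8
  have hcov : {x | x ∈ ball c r ∧ f x = 0} ⊆
      ⋃ k, AffineMap.homothety x0 (t k) '' {x | x ∈ ball c r ∧ f (q (x, t k)) = 0} := by
    rintro y ⟨hy, hy0⟩
    have htend : Tendsto t atTop (𝓝 1) := by
      refine tendsto_of_tendsto_of_tendsto_of_le_of_le (g := fun k : ℕ => 1 - 1 / ((k : ℝ) + 2))
        (h := fun _ => (1 : ℝ)) ?_ tendsto_const_nhds (fun k => (ht k).1.le) (fun k => (ht k).2.le)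
      have h10 : Tendsto (fun k : ℕ => 1 / ((k : ℝ) + 2)) atTop (𝓝 0) := by
        refine Tendsto.div_atTop tendsto_const_nhds ?_
        exact tendsto_atTop_add_const_right _ _ tendsto_natCast_atTop_atTop
      simpa using tendsto_const_nhds.sub h10
    have htp : ∀ k, 0 < t k := by
      intro k
      have hk1 : 1 / ((k : ℝ) + 2) ≤ 1 := by
        rw [div_le_one (by positivity)]
        have : (0 : ℝ) ≤ k := Nat.cast_nonneg k
        linarith
      linarith [(ht k).1]
    have h11 : Tendsto (fun k => x0 + (t k)⁻¹ • (y - x0)) atTop (𝓝 y) := by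
      have h12 : Tendsto (fun k => (t k)⁻¹) atTop (𝓝 1) := by
        simpa using htend.inv₀ one_ne_zero
      have := (h12.smul_const (y - x0)).const_add x0
      simpa using this
    obtain ⟨k, hk⟩ := (h11.eventually (isOpen_ball.mem_nhds hy)).exists
    refine mem_iUnion.mpr ⟨k, x0 + (t k)⁻¹ • (y - x0), ⟨hk, ?_⟩, ?_⟩
    · have : q (x0 + (t k)⁻¹ • (y - x0), t k) = y := by
        simp only [hq, add_sub_cancel_left, smul_smul]
        rw [mul_inv_cancel₀ (htp k).ne', one_smul]
        abel
      rw [this]; exact hy0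
    · rw [AffineMap.homothety_apply]
      simp only [vsub_eq_sub, vadd_eq_add, add_sub_cancel_left, smul_smul]
      rw [mul_inv_cancel₀ (htp k).ne', one_smul]
      abel
  refine measure_mono_null hcov (measure_iUnion_null fun k => ?_)
  rw [Measure.addHaar_image_homothety, ht0, mul_zero]

end Vale.Agent.P271.H879
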