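import Vale.Agent.P271.H879.L2Reg
import Vale.Agent.P271.H311.GlobEnd

/-! P271 (helper879): `L2Reg` holds. -/

namespace Vale.Agent.P271.H879

theorem l2Reg : Vale.Agent.P271.Br.L2Reg :=
  fun _ _ _ hφ z _ _ hb h D hD => l2reg hφ z hb h D hD

end Vale.Agent.P271.H879
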