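import Vale.Agent.P271.H879.Chart

/-! P271 (helper879): universal dual derivations at a regular point of an affine domain. -/

open MvPolynomial IsLocalRing Filter Topology Metric

namespace Vale.Agent.P271.H879

open Vale.Agent.P271.H741

section Dual

variable {R : Type} [CommRing R] [IsDomain R] [Algebra ℂ R]

/-- A (raw) derivation over `j`. -/
structure IsDer {R F : Type*} [CommRing R] [Algebra ℂ R] [CommRing F] [Algebra ℂ F]
    (j : R →ₐ[ℂ] F) (E : R →ₗ[ℂ] F) : Prop where
  leib : ∀ a b, E (a * b) = j a * E b + j b * E a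

theorem IsDer.map_one {R F : Type*} [CommRing R] [Algebra ℂ R] [CommRing F] [Algebra ℂ F]
    {j : R →ₐ[ℂ] F} {E : R →ₗ[ℂ] F} (h : IsDer j E) : E 1 = 0 := by
  have := h.leib 1 1
  simp only [mul_one, _root_.map_one, one_mul] at this
  simpa using this

theorem IsDer.map_algebraMap {R F : Type*} [CommRing R] [Algebra ℂ R] [CommRing F] [Algebra ℂ F]
    {j : R →ₐ[ℂ] F} {E : R →ₗ[ℂ] F} (h : IsDer j E) (c : ℂ) : E (algebraMap ℂ R c) = 0 := by
  rw [Algebra.algebraMap_eq_smul_one, map_smul, h.map_one, smul_zero]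

/-- The values of a derivation on a finitely generated algebra. -/
theorem IsDer.apply_pi {R F : Type*} [CommRing R] [Algebra ℂ R] [CommRing F] [Algebra ℂ F]
    {j : R →ₐ[ℂ] F} {E : R →ₗ[ℂ] F} (h : IsDer j E) {N : ℕ}
    (π : MvPolynomial (Fin N) ℂ →ₐ[ℂ] R) (Q : MvPolynomial (Fin N) ℂ) :
    E (π Q) = ∑ l, j (π (pderiv l Q)) * E (π (MvPolynomial.X l)) := by
  classical
  induction Q using MvPolynomial.induction_on with
  | C a =>
    have h1 : π (C a) = algebraMap ℂ R a := by
      rw [← MvPolynomial.algebraMap_eq, AlgHom.commutes]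
    rw [h1, h.map_algebraMap]
    simp
  | add p q hp hq => simp only [map_add, hp, hq, add_mul, Finset.sum_add_distrib]
  | mul_X p i hp =>
    rw [map_mul, h.leib, hp]
    simp only [Derivation.leibniz, smul_eq_mul, map_add, map_mul, add_mul,
      Finset.sum_add_distrib, pderiv_X]
    congr 1
    · rw [Finset.sum_eq_single i]
      · simp
      · intro b _ hb
        simp [hb]
      · simp
    · rw [Finset.mul_sum]
      refine Finset.sum_congr rfl fun l _ => ?_
      ring

/-- **Universal dual derivations.** -/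
theorem dual [Algebra.FiniteType ℂ R] (φ : R →ₐ[ℂ] ℂ) (p : Ideal R) [p.IsPrime]
    (hp : ∀ r, r ∈ p ↔ φ r = 0) {d : ℕ} (hd : ringKrullDim (Localization.AtPrime p) = d)
    {x : Fin d → R} (hx : ∀ i, φ (x i) = 0)
    (hgen : ∀ r, φ r = 0 → ∃ s, φ s ≠ 0 ∧ s * r ∈ Ideal.span (Set.range x)) :
    ∃ (δ : R) (θ : Fin d → Derivation ℂ R R), φ δ ≠ 0 ∧
      (∀ i j, θ i (x j) = if i = j then δ else 0) ∧
      ∀ (F : Type) [CommRing F] [Algebra ℂ F] (j : R →ₐ[ℂ] F) (E : R →ₗ[ℂ] F), IsDer j E →
        ∀ r, j δ * E r = ∑ i, j (θ i r) * E (x i) := by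
  classical
  obtain ⟨N, π, hπ⟩ := Algebra.FiniteType.iff_quotient_mvPolynomial''.mp
    (inferInstance : Algebra.FiniteType ℂ R)
  set y : Fin N → ℂ := fun j => φ (π (MvPolynomial.X j)) with hy0
  have hy : ∀ Q, φ (π Q) = eval y Q := by
    intro Q
    have h1 : φ.comp π = aeval y := by
      apply MvPolynomial.algHom_ext
      intro j
      simp [hy0]
    have h2 := DFunLike.congr_fun h1 Q
    rw [aeval_eq_eval] at h2
    exact h2
  obtain ⟨k, X, P, hN, hXx, hP0, hsp, S, hS, hSQ⟩ :=
    exists_data π hπ φ p hp hd (fun i => (hp _).mpr (hx i)) (fun r hr => by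
      obtain ⟨s, hs, hs'⟩ := hgen r ((hp r).mp hr)
      exact ⟨s, fun h => hs ((hp s).mp h), hs'⟩) hy
  let e : Fin d ⊕ Fin k ≃ Fin N := finSumFinEquiv.trans (finCongr hN)
  let F₀ : Fin d ⊕ Fin k → MvPolynomial (Fin N) ℂ := Sum.elim X P
  let M : Matrix (Fin d ⊕ Fin k) (Fin d ⊕ Fin k) (MvPolynomial (Fin N) ℂ) :=
    Matrix.of fun a b => pderiv (e b) (F₀ a)
  have hM : ∀ a b, M a b = pderiv (e b) (F₀ a) := fun a b => rfl
  have hdet : eval y M.det ≠ 0 := by
    intro h0
    have h1 : (M.map (eval y)).det = 0 := by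
      rw [← h0]
      exact (RingHom.map_det (eval y) M).symm
    obtain ⟨v, hv, hv'⟩ := Matrix.exists_mulVec_eq_zero_iff.mpr h1
    apply hv
    have h2 : (fun l => v (e.symm l)) = 0 := by
      refine injective_of_span hsp fun a => ?_
      have h3 : ∑ b, M.map (eval y) a b * v b = 0 := congrFun hv' a
      rw [← h3, ← e.sum_comp]
      refine Finset.sum_congr rfl fun b _ => ?_
      rw [Equiv.symm_apply_apply, Matrix.map_apply, hM]
      congr 1
      rcases a with a | a
      · show dAt y (X a) (e b) = _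
        rw [dAt_apply]; rfl
      · show dAt y (P a) (e b) = _
        rw [dAt_apply]; rfl
    funext b
    have := congrFun h2 (e b)
    simpa using this
  have hadj : ∀ a c, ∑ b, M a b * M.adjugate b c = if a = c then M.det else 0 := by
    intro a c
    have h1 := congrFun (congrFun (Matrix.mul_adjugate M) a) c
    rw [Matrix.mul_apply] at h1
    rw [h1, Matrix.smul_apply, Matrix.one_apply]
    split_ifs <;> simp
  have hadj' : ∀ a c, ∑ b, M.adjugate a b * M b c = if a = c then M.det else 0 := by
    intro a c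
    have h1 := congrFun (congrFun (Matrix.adjugate_mul M) a) c
    rw [Matrix.mul_apply] at h1
    rw [h1, Matrix.smul_apply, Matrix.one_apply]
    split_ifs <;> simp
  let Θ : Fin d → Derivation ℂ (MvPolynomial (Fin N) ℂ) (MvPolynomial (Fin N) ℂ) :=
    fun i => ∑ b, M.adjugate b (Sum.inl i) • pderiv (e b)
  have hΘ : ∀ i Q, Θ i Q = ∑ b, M.adjugate b (Sum.inl i) * pderiv (e b) Q := by
    intro i Q
    have h1 : ∀ (s : Finset (Fin d ⊕ Fin k)),
        (∑ b ∈ s, M.adjugate b (Sum.inl i) • (pderiv (R := ℂ) (e b))) Q =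
        ∑ b ∈ s, M.adjugate b (Sum.inl i) * pderiv (e b) Q := by
      intro s
      induction s using Finset.induction_on with
      | empty => simp
      | insert a s ha ih =>
        rw [Finset.sum_insert ha, Finset.sum_insert ha, Derivation.add_apply, ih,
          Derivation.smul_apply, smul_eq_mul]
    exact h1 _
  have hΘF : ∀ i a, Θ i (F₀ a) = if a = Sum.inl i then M.det else 0 := by
    intro i a
    rw [hΘ, ← hadj a (Sum.inl i)]
    refine Finset.sum_congr rfl fun b _ => ?_
    rw [hM, mul_comm]
  have hS' : π S ≠ 0 := by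
    intro h
    apply hS
    rw [← hy, h, map_zero]
  have hspan0 : ∀ Q ∈ Ideal.span (Set.range P), π Q = 0 := by
    intro Q hQ
    have h1 : Ideal.span (Set.range P) ≤ RingHom.ker π := by
      rw [Ideal.span_le]
      rintro _ ⟨j, rfl⟩
      exact hP0 j
    exact h1 hQ
  have hdesc : ∀ i Q, π Q = 0 → π (Θ i Q) = 0 := by
    intro i Q hQ
    obtain ⟨c, hc⟩ := (Submodule.mem_span_range_iff_exists_fun _).mp (hSQ Q hQ)
    have h1 : π (Θ i (S * Q)) = 0 := by
      rw [← hc, map_sum, map_sum]
      refine Finset.sum_eq_zero fun a _ => ?_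
      rw [smul_eq_mul, Derivation.leibniz]
      have h2 : Θ i (P a) = 0 := by
        have := hΘF i (Sum.inr a)
        simpa [F₀] using this
      rw [h2, smul_zero, zero_add, smul_eq_mul, map_mul, hP0, zero_mul]
    rw [Derivation.leibniz, smul_eq_mul, smul_eq_mul, map_add, map_mul, map_mul, hQ, zero_mul,
      add_zero] at h1
    exact (mul_eq_zero.mp h1).resolve_left hS'
  let θ : Fin d → Derivation ℂ R R := fun i => Derivation.liftOfSurjective hπ (hdesc i)
  have hθ : ∀ i Q, θ i (π Q) = π (Θ i Q) := by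
    intro i Q
    exact Derivation.liftOfSurjective_apply hπ (hdesc i) Q
  refine ⟨π M.det, θ, by rw [hy]; exact hdet, ?_, ?_⟩
  · intro i j
    rw [← hXx j, hθ]
    have := hΘF i (Sum.inl j)
    simp only [F₀, Sum.elim_inl, Sum.inl.injEq] at this
    rw [this]
    by_cases hij : i = j
    · subst hij; simp
    · rw [if_neg hij, if_neg (fun h => hij h.symm), map_zero]
  · intro F _ _ j E hE r
    obtain ⟨Q, rfl⟩ := hπ r
    -- the values on the coordinates
    have h1 : ∀ b, j (π M.det) * E (π (MvPolynomial.X (e b))) =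
        ∑ i, j (π (M.adjugate b (Sum.inl i))) * E (x i) := by
      intro b
      have h2 : ∑ a, j (π (M.adjugate b a)) * E (π (F₀ a)) =
          j (π M.det) * E (π (MvPolynomial.X (e b))) := by
        have h3 : ∀ a, E (π (F₀ a)) =
            ∑ b', j (π (M a b')) * E (π (MvPolynomial.X (e b'))) := by
          intro a
          rw [hE.apply_pi π, ← e.sum_comp]
          rfl
        simp only [h3, Finset.mul_sum]
        rw [Finset.sum_comm]
        have h4 : ∀ b', ∑ a, j (π (M.adjugate b a)) *
            (j (π (M a b')) * E (π (MvPolynomial.X (e b')))) =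
            (if b = b' then j (π M.det) else 0) * E (π (MvPolynomial.X (e b'))) := by
          intro b'
          have h5 := congrArg (fun z => j (π z)) (hadj' b b')
          simp only [map_sum, map_mul] at h5
          have h6 : (if b = b' then j (π M.det) else 0) =
              j (π (if b = b' then M.det else 0)) := by
            by_cases hbb : b = b'
            · rw [if_pos hbb, if_pos hbb]
            · rw [if_neg hbb, if_neg hbb, map_zero, map_zero]
          rw [h6, ← h5, Finset.sum_mul]
          refine Finset.sum_congr rfl fun a _ => ?_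
          ring
        simp only [h4]
        rw [Finset.sum_eq_single b]
        · simp
        · intro b' _ hb'
          rw [if_neg (Ne.symm hb'), zero_mul]
        · simp
      rw [← h2, Fintype.sum_sum_type]
      have h7 : ∀ a, E (π (F₀ (Sum.inr a))) = 0 := by
        intro a
        show E (π (P a)) = 0
        rw [hP0, map_zero]
      simp only [h7, mul_zero, Finset.sum_const_zero, add_zero]
      refine Finset.sum_congr rfl fun i _ => ?_
      show _ * E (π (X i)) = _
      rw [hXx]
    rw [hE.apply_pi π, ← e.sum_comp, Finset.mul_sum]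
    have h8 : ∀ b, j (π M.det) *
        (j (π (pderiv (e b) Q)) * E (π (MvPolynomial.X (e b)))) =
        ∑ i, j (π (pderiv (e b) Q)) * (j (π (M.adjugate b (Sum.inl i))) * E (x i)) := by
      intro b
      rw [mul_left_comm, h1, Finset.mul_sum]
    simp only [h8]
    rw [Finset.sum_comm]
    refine Finset.sum_congr rfl fun i _ => ?_
    rw [hθ, hΘ, map_sum, map_sum, Finset.sum_mul]
    refine Finset.sum_congr rfl fun b _ => ?_
    rw [map_mul, map_mul]
    ring

end Dual

end Vale.Agent.P271.H879
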