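import Vale.Agent.P271.H879.Deriv
import Vale.Agent.P271.H879.Cone

/-! P271 (helper879): derivations of the fraction field, the chain rule in a chart, and the
regularity of `f dz_0 ∧ … ∧ dz_n`. -/

open IsLocalRing Filter Topology Metric

namespace Vale.Agent.P271.H879

open Vale.Agent.P271.H741 Vale.Agent.P271.Sch

section Ext

variable {R : Type} [CommRing R] [Algebra ℂ R]

section

variable {K : Type} [Field K] [Algebra R K] [IsFractionRing R K] [Algebra ℂ K]
  [IsScalarTower ℂ R K]

/-- Extension of derivations to the field of fractions. -/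
theorem exists_extend [IsDomain R] {E : R →ₗ[ℂ] K} (hE : IsDer (IsScalarTower.toAlgHom ℂ R K) E) :
    ∃ D : Derivation ℂ K K, ∀ a, D (algebraMap R K a) = E a := by
  let Φ₁ : R →+* TrivSqZeroExt K K :=
    { toFun := fun a => TrivSqZeroExt.inl (algebraMap R K a) + TrivSqZeroExt.inr (E a)
      map_one' := by
        apply TrivSqZeroExt.ext
        · simp
        · simp [hE.map_one]
      map_mul' := fun a b => by
        apply TrivSqZeroExt.ext
        · simp
        · have h := hE.leib a b
          simp only [IsScalarTower.coe_toAlgHom'] at h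
          simp only [TrivSqZeroExt.snd_add, TrivSqZeroExt.snd_inl, TrivSqZeroExt.snd_inr, zero_add,
            TrivSqZeroExt.snd_mul, TrivSqZeroExt.fst_add, TrivSqZeroExt.fst_inl,
            TrivSqZeroExt.fst_inr, add_zero, smul_eq_mul, op_smul_eq_smul]
          exact h
      map_zero' := by
        apply TrivSqZeroExt.ext <;> simp
      map_add' := fun a b => by
        apply TrivSqZeroExt.ext <;> simp }
  let fst : TrivSqZeroExt K K →+* K := (TrivSqZeroExt.fstHom K K K : TrivSqZeroExt K K →+* K)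
  have hfst : ∀ z, fst z = z.fst := fun _ => rfl
  have h1 : fst.comp Φ₁ = algebraMap R K := by
    refine RingHom.ext fun a => ?_
    rw [RingHom.comp_apply, hfst]
    simp [Φ₁]
  have hunit : ∀ y : nonZeroDivisors R, IsUnit (Φ₁ y) := by
    intro y
    rw [TrivSqZeroExt.isUnit_iff_isUnit_fst]
    have h2 : (Φ₁ y).fst = algebraMap R K y := congrArg (fun f => f (y : R)) h1
    rw [h2]
    exact IsUnit.mk0 _ ((map_ne_zero_iff _ (IsFractionRing.injective R K)).2
      (nonZeroDivisors.ne_zero y.2))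
  let Φ : K →+* TrivSqZeroExt K K := IsLocalization.lift (M := nonZeroDivisors R) hunit
  have hΦ : ∀ f, Φ (algebraMap R K f) = Φ₁ f := fun f => IsLocalization.lift_eq _ _
  have h3 : fst.comp Φ = RingHom.id K := by
    refine IsLocalization.ringHom_ext (nonZeroDivisors R) ?_
    refine RingHom.ext fun f => ?_
    change fst (Φ (algebraMap R K f)) = algebraMap R K f
    rw [hΦ]
    exact congrArg (fun g => g f) h1
  have h4 : ∀ z, (Φ z).fst = z := fun z => congrArg (fun g => g z) h3
  have hk : ∀ r : ℂ, (Φ (algebraMap ℂ K r)) = TrivSqZeroExt.inl (algebraMap ℂ K r) := by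
    intro r
    have e1 : algebraMap ℂ K r = algebraMap R K (algebraMap ℂ R r) := by
      rw [IsScalarTower.algebraMap_apply ℂ R K]
    rw [e1, hΦ]
    apply TrivSqZeroExt.ext
    · simp [Φ₁]
    · simp [Φ₁, hE.map_algebraMap]
  let Dl : K →ₗ[ℂ] K :=
    { toFun := fun z => (Φ z).snd
      map_add' := fun x y => by rw [map_add, TrivSqZeroExt.snd_add]
      map_smul' := fun r x => by
        rw [Algebra.smul_def, map_mul, hk, TrivSqZeroExt.snd_mul, TrivSqZeroExt.fst_inl,
          TrivSqZeroExt.snd_inl, smul_zero, add_zero, smul_eq_mul, RingHom.id_apply,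
          Algebra.smul_def] }
  refine ⟨Derivation.mk' Dl fun x y => ?_, fun a => ?_⟩
  · change (Φ (x * y)).snd = x • (Φ y).snd + y • (Φ x).snd
    rw [map_mul, TrivSqZeroExt.snd_mul, h4, h4, op_smul_eq_smul]
  · change (Φ (algebraMap R K a)).snd = _
    rw [hΦ]
    simp [Φ₁]

omit [IsFractionRing R K] in
/-- A derivation of the fraction field restricts to a raw derivation. -/
theorem isDer_restrict (D : Derivation ℂ K K) :
    IsDer (IsScalarTower.toAlgHom ℂ R K)
      (D.toLinearMap.comp (IsScalarTower.toAlgHom ℂ R K).toLinearMap) := by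
  refine ⟨fun a b => ?_⟩
  show D (algebraMap R K (a * b)) = algebraMap R K a * D (algebraMap R K b) +
    algebraMap R K b * D (algebraMap R K a)
  rw [map_mul, Derivation.leibniz]
  rfl

end

/-- The partial derivatives at a point of a chart are raw derivations. -/
theorem isDer_chart {m : ℕ} {φ : R →ₐ[ℂ] ℂ} (c : Chart φ m) {x : Fin m → ℂ}
    (hx : x ∈ ball (0 : Fin m → ℂ) c.ρ) (u : Fin m → ℂ) :
    ∃ E : R →ₗ[ℂ] ℂ, IsDer (c.ψ x) E ∧ ∀ s, E s = fderiv ℂ (fun y => c.ψ y s) x u := by
  have h : ∀ s, DifferentiableAt ℂ (fun y => c.ψ y s) x := fun s =>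
    (c.holo s x hx).differentiableAt
  let E : R →ₗ[ℂ] ℂ :=
    { toFun := fun s => fderiv ℂ (fun y => c.ψ y s) x u
      map_add' := fun s t => by
        have : (fun y => c.ψ y (s + t)) = (fun y => c.ψ y s) + fun y => c.ψ y t := by
          funext y; simp
        rw [this, fderiv_add (h s) (h t)]
        rfl
      map_smul' := fun r s => by
        have : (fun y => c.ψ y (r • s)) = r • fun y => c.ψ y s := by
          funext y; simp
        rw [this, fderiv_const_smul (h s)]
        rfl }
  refine ⟨E, ⟨fun a b => ?_⟩, fun s => rfl⟩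
  change fderiv ℂ (fun y => c.ψ y (a * b)) x u = _
  have : (fun y => c.ψ y (a * b)) = (fun y => c.ψ y a) * fun y => c.ψ y b := by
    funext y; simp
  rw [this, fderiv_mul (h a) (h b)]
  rfl

/-- The derivative of the coordinates of a chart. -/
theorem fderiv_coord {m : ℕ} {φ : R →ₐ[ℂ] ℂ} (c : Chart φ m) {x : Fin m → ℂ}
    (hx : x ∈ ball (0 : Fin m → ℂ) c.ρ) (u : Fin m → ℂ) (j : Fin m) :
    fderiv ℂ (fun y => c.ψ y (c.t j)) x u = u j := by
  have h1 : (fun y => c.ψ y (c.t j)) =ᶠ[𝓝 x] fun y => y j := by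
    filter_upwards [isOpen_ball.mem_nhds hx] with y hy using c.coord y hy j
  rw [h1.fderiv_eq]
  have h2 : HasFDerivAt (fun y : Fin m → ℂ => y j)
      (ContinuousLinearMap.proj j : (Fin m → ℂ) →L[ℂ] ℂ) x := hasFDerivAt_apply j x
  rw [h2.fderiv, ContinuousLinearMap.proj_apply]

end Ext

/-! ### Local regularity -/

section Reg

variable {n : ℕ} {C : GCone n}

theorem regAt_algebraMap (φ : C.Pt) (a : C.R) : GCone.RegAt φ (algebraMap C.R C.K a) :=
  ⟨a, 1, by simp, by simp⟩

theorem RegAt.add {φ : C.Pt} {f g : C.K} (hf : GCone.RegAt φ f) (hg : GCone.RegAt φ g) :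
    GCone.RegAt φ (f + g) := by
  obtain ⟨a, b, hb, h⟩ := hf
  obtain ⟨a', b', hb', h'⟩ := hg
  refine ⟨a * b' + a' * b, b * b', by rw [map_mul]; exact mul_ne_zero hb hb', ?_⟩
  rw [map_mul, map_add, map_mul, map_mul, ← h, ← h']
  ring

theorem RegAt.mul {φ : C.Pt} {f g : C.K} (hf : GCone.RegAt φ f) (hg : GCone.RegAt φ g) :
    GCone.RegAt φ (f * g) := by
  obtain ⟨a, b, hb, h⟩ := hf
  obtain ⟨a', b', hb', h'⟩ := hg
  refine ⟨a * a', b * b', by rw [map_mul]; exact mul_ne_zero hb hb', ?_⟩
  rw [map_mul, map_mul, ← h, ← h']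
  ring

/-- The subring of regular functions. -/
def regRing (φ : C.Pt) : Subring C.K where
  carrier := {f | GCone.RegAt φ f}
  mul_mem' := RegAt.mul
  one_mem' := by
    have := regAt_algebraMap φ (1 : C.R)
    simpa using this
  add_mem' := RegAt.add
  zero_mem' := by
    have := regAt_algebraMap φ (0 : C.R)
    simpa using this
  neg_mem' := by
    intro f hf
    have h1 : GCone.RegAt φ (algebraMap C.R C.K (-1)) := regAt_algebraMap φ _
    have := RegAt.mul h1 hf
    simpa using this

theorem mem_regRing {φ : C.Pt} {f : C.K} : f ∈ regRing φ ↔ GCone.RegAt φ f := Iff.rfl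

theorem regAt_det {φ : C.Pt} {ι : Type*} [Fintype ι] [DecidableEq ι] {M : Matrix ι ι C.K}
    (hM : ∀ i j, GCone.RegAt φ (M i j)) : GCone.RegAt φ M.det := by
  rw [← mem_regRing, Matrix.det_apply]
  refine Subring.sum_mem _ fun σ _ => ?_
  refine (regRing φ).zsmul_mem ?_ _
  exact Subring.prod_mem _ fun i _ => hM _ _

theorem regAt_inv {φ : C.Pt} {s : C.R} (hs : φ s ≠ 0) :
    GCone.RegAt φ (algebraMap C.R C.K s)⁻¹ := by
  have hs0 : s ≠ 0 := by rintro rfl; exact hs (map_zero φ)
  have h1 : algebraMap C.R C.K s ≠ 0 := by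
    rw [Ne, FaithfulSMul.algebraMap_eq_zero_iff]
    exact hs0
  refine ⟨1, s, hs, ?_⟩
  rw [inv_mul_cancel₀ h1, map_one]

theorem regAt_div {φ : C.Pt} {r s : C.R} (hs : φ s ≠ 0) :
    GCone.RegAt φ (algebraMap C.R C.K r / algebraMap C.R C.K s) := by
  rw [div_eq_mul_inv]
  exact RegAt.mul (regAt_algebraMap φ r) (regAt_inv hs)

end Reg

end Vale.Agent.P271.H879
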