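import Vale.Agent.P271.H879.DerivK

/-! P271 (helper879), block L2REG: the form `(a/b) dz_0 ∧ … ∧ dz_n` is regular at the points where
it is locally square integrable; the unit clause of `Gen`. -/

open IsLocalRing Filter Topology Metric MeasureTheory
open scoped ENNReal

namespace Vale.Agent.P271.H879

open Vale.Agent.P271.H741 Vale.Agent.P271.Sch

variable {n : ℕ} {C : GCone n}

theorem algebraMap_ne {s : C.R} (hs : s ≠ 0) : algebraMap C.R C.K s ≠ 0 := by
  rw [Ne, FaithfulSMul.algebraMap_eq_zero_iff]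
  exact hs

/-- Dual derivations at a point of a cone. -/
theorem exists_dual {φ : C.Pt} (hφ : GCone.NV φ) {x : Fin (n + 1) → C.R}
    (hx : ∀ i, φ (x i) = 0)
    (hgen : ∀ r, φ r = 0 → ∃ s, φ s ≠ 0 ∧ s * r ∈ Ideal.span (Set.range x)) :
    ∃ (δ : C.R) (θ : Fin (n + 1) → Derivation ℂ C.R C.R)
      (D : Fin (n + 1) → Derivation ℂ C.K C.K), φ δ ≠ 0 ∧
      (∀ i j, θ i (x j) = if i = j then δ else 0) ∧
      (∀ i r, D i (algebraMap C.R C.K r) =
        algebraMap C.R C.K (θ i r) / algebraMap C.R C.K δ) ∧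
      (∀ i, GCone.RegDer φ (D i)) ∧
      (∀ (E : Derivation ℂ C.K C.K) (r : C.R), E (algebraMap C.R C.K r) =
        ∑ i, E (algebraMap C.R C.K (x i)) * D i (algebraMap C.R C.K r)) ∧
      ∀ c : Chart φ (n + 1), c.t = x → ∀ ξ ∈ ball (0 : Fin (n + 1) → ℂ) c.ρ, ∀ i r,
        c.ψ ξ δ * fderiv ℂ (fun y => c.ψ y r) ξ (Pi.single i 1) = c.ψ ξ (θ i r) := by
  classical
  have := ker_isMaximal φ
  have := C.finiteType
  obtain ⟨-, hd⟩ := C.regular (RingHom.ker φ) (nv_ker hφ)
  obtain ⟨δ, θ, hδ, hθx, hE⟩ := dual φ (RingHom.ker φ) (fun r => Iff.rfl) hd hx hgen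
  have hδ0 : δ ≠ 0 := by rintro rfl; exact hδ (map_zero φ)
  have hδK : algebraMap C.R C.K δ ≠ 0 := algebraMap_ne hδ0
  have hext : ∀ i, ∃ D : Derivation ℂ C.K C.K, ∀ r, D (algebraMap C.R C.K r) =
      algebraMap C.R C.K (θ i r) := by
    intro i
    obtain ⟨D, hD⟩ := exists_extend (K := C.K)
      (E := (IsScalarTower.toAlgHom ℂ C.R C.K).toLinearMap.comp (θ i).toLinearMap) (by
        refine ⟨fun a b => ?_⟩
        show algebraMap C.R C.K (θ i (a * b)) = algebraMap C.R C.K a * algebraMap C.R C.K (θ i b) +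
          algebraMap C.R C.K b * algebraMap C.R C.K (θ i a)
        rw [Derivation.leibniz, map_add, smul_eq_mul, smul_eq_mul, map_mul, map_mul])
    exact ⟨D, hD⟩
  choose D' hD' using hext
  let D : Fin (n + 1) → Derivation ℂ C.K C.K := fun i => (algebraMap C.R C.K δ)⁻¹ • D' i
  have hD : ∀ i r, D i (algebraMap C.R C.K r) =
      algebraMap C.R C.K (θ i r) / algebraMap C.R C.K δ := by
    intro i r
    show (algebraMap C.R C.K δ)⁻¹ • D' i (algebraMap C.R C.K r) = _
    rw [hD', smul_eq_mul, div_eq_mul_inv, mul_comm]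
  refine ⟨δ, θ, D, hδ, hθx, hD, ?_, ?_, ?_⟩
  · intro i f hf
    obtain ⟨a, b, hb, hab⟩ := hf
    have hb0 : b ≠ 0 := by rintro rfl; exact hb (map_zero φ)
    have hbK : algebraMap C.R C.K b ≠ 0 := algebraMap_ne hb0
    have h1 : D i f = (D i (algebraMap C.R C.K a) + (-1) * (f * D i (algebraMap C.R C.K b))) *
        (algebraMap C.R C.K b)⁻¹ := by
      rw [← hab, Derivation.leibniz, smul_eq_mul, smul_eq_mul, neg_one_mul, add_neg_cancel_comm,
        mul_comm (algebraMap C.R C.K b), mul_assoc, mul_inv_cancel₀ hbK, mul_one]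
    rw [h1]
    have hreg : ∀ r, GCone.RegAt φ (D i (algebraMap C.R C.K r)) := by
      intro r; rw [hD]; exact regAt_div hδ
    have hm1 : GCone.RegAt φ (-1 : C.K) := by
      have := regAt_algebraMap φ (-1 : C.R)
      simpa using this
    exact RegAt.mul (RegAt.add (hreg a) (RegAt.mul hm1 (RegAt.mul ⟨a, b, hb, hab⟩ (hreg b))))
      (regAt_inv hb)
  · intro E r
    have h1 := hE C.K (IsScalarTower.toAlgHom ℂ C.R C.K)
      (E.toLinearMap.comp (IsScalarTower.toAlgHom ℂ C.R C.K).toLinearMap) (isDer_restrict E) r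
    have h2 : algebraMap C.R C.K δ * E (algebraMap C.R C.K r) =
        ∑ i, algebraMap C.R C.K (θ i r) * E (algebraMap C.R C.K (x i)) := h1
    have h3 : E (algebraMap C.R C.K r) = (algebraMap C.R C.K δ)⁻¹ *
        (algebraMap C.R C.K δ * E (algebraMap C.R C.K r)) := by
      rw [← mul_assoc, inv_mul_cancel₀ hδK, one_mul]
    rw [h3, h2, Finset.mul_sum]
    refine Finset.sum_congr rfl fun i _ => ?_
    rw [hD, div_eq_mul_inv]
    ring
  · intro c hc ξ hξ i r
    obtain ⟨E, hE1, hE2⟩ := isDer_chart c hξ (Pi.single i 1)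
    have h1 := hE ℂ (c.ψ ξ) E hE1 r
    rw [← hE2, h1]
    have h2 : ∀ j, E (x j) = if j = i then 1 else 0 := by
      intro j
      rw [hE2, ← hc, fderiv_coord c hξ, Pi.single_apply]
    simp only [h2]
    rw [Finset.sum_eq_single i]
    · simp
    · intro j _ hj
      rw [if_neg hj, mul_zero]
    · simp

/-- The Jacobian determinant of `z` in a chart. -/
noncomputable def jacChart {φ : C.Pt} (c : Chart φ (n + 1)) (z : Fin (n + 1) → C.R)
    (ξ : Fin (n + 1) → ℂ) : ℂ :=
  (Matrix.of fun k j => fderiv ℂ (fun y => c.ψ y (z j)) ξ (Pi.single k 1)).det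

/-- The algebraic Jacobian. -/
theorem exists_jac {φ : C.Pt} (hφ : GCone.NV φ) {x : Fin (n + 1) → C.R}
    (hx : ∀ i, φ (x i) = 0)
    (hgen : ∀ r, φ r = 0 → ∃ s, φ s ≠ 0 ∧ s * r ∈ Ideal.span (Set.range x))
    (z : Fin (n + 1) → C.R) :
    ∃ (δ J : C.R) (D₀ : Fin (n + 1) → Derivation ℂ C.K C.K), φ δ ≠ 0 ∧
      (∀ i, GCone.RegDer φ (D₀ i)) ∧
      GCone.jac z D₀ = algebraMap C.R C.K J * ((algebraMap C.R C.K δ) ^ (n + 1))⁻¹ ∧
      (∀ D : Fin (n + 1) → Derivation ℂ C.K C.K, (∀ k, GCone.RegDer φ (D k)) →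
        ∃ g, GCone.RegAt φ g ∧ GCone.jac z D = g * algebraMap C.R C.K J) ∧
      ∀ c : Chart φ (n + 1), c.t = x → ∀ ξ ∈ ball (0 : Fin (n + 1) → ℂ) c.ρ,
        c.ψ ξ J = (c.ψ ξ δ) ^ (n + 1) * jacChart c z ξ := by
  classical
  obtain ⟨δ, θ, D₀, hδ, -, hD, hreg, hE, hc⟩ := exists_dual hφ hx hgen
  have hδ0 : δ ≠ 0 := by rintro rfl; exact hδ (map_zero φ)
  have hδK : algebraMap C.R C.K δ ≠ 0 := algebraMap_ne hδ0
  set J : C.R := (Matrix.of fun k j => θ k (z j)).det with hJ
  have hJK : algebraMap C.R C.K J =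
      (Matrix.of fun k j => algebraMap C.R C.K (θ k (z j))).det := by
    rw [hJ, RingHom.map_det]
    rfl
  have hjac0 : GCone.jac z D₀ = algebraMap C.R C.K J * ((algebraMap C.R C.K δ) ^ (n + 1))⁻¹ := by
    have h1 : (Matrix.of fun i j => D₀ i (algebraMap C.R C.K (z j))) =
        (algebraMap C.R C.K δ)⁻¹ • (Matrix.of fun k j => algebraMap C.R C.K (θ k (z j))) := by
      ext i j
      simp only [Matrix.of_apply, Matrix.smul_apply, smul_eq_mul, hD, div_eq_mul_inv]
      ring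
    rw [GCone.jac, h1, Matrix.det_smul, Fintype.card_fin, hJK, inv_pow, mul_comm]
  refine ⟨δ, J, D₀, hδ, hreg, hjac0, ?_, ?_⟩
  · intro D hDreg
    have h1 : (Matrix.of fun i j => D i (algebraMap C.R C.K (z j))) =
        (Matrix.of fun i k => D i (algebraMap C.R C.K (x k))) *
          (Matrix.of fun k j => D₀ k (algebraMap C.R C.K (z j))) := by
      ext i j
      rw [Matrix.mul_apply]
      exact hE (D i) (z j)
    have h2 : GCone.jac z D = (Matrix.of fun i k => D i (algebraMap C.R C.K (x k))).det *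
        GCone.jac z D₀ := by
      rw [GCone.jac, h1, Matrix.det_mul]
      rfl
    refine ⟨(Matrix.of fun i k => D i (algebraMap C.R C.K (x k))).det *
      ((algebraMap C.R C.K δ) ^ (n + 1))⁻¹, ?_, ?_⟩
    · refine RegAt.mul (regAt_det fun i k => ?_) ?_
      · exact hDreg i _ (regAt_algebraMap φ (x k))
      · rw [← map_pow]
        exact regAt_inv (by rw [map_pow]; exact pow_ne_zero _ hδ)
    · rw [h2, hjac0]
      ring
  · intro c hct ξ hξ
    have h1 : (c.ψ ξ).mapMatrix (Matrix.of fun k j => θ k (z j)) =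
        (c.ψ ξ δ) • (Matrix.of fun k j =>
          fderiv ℂ (fun y => c.ψ y (z j)) ξ (Pi.single k 1)) := by
      ext k j
      simp only [AlgHom.mapMatrix_apply, Matrix.map_apply, Matrix.of_apply, Matrix.smul_apply,
        smul_eq_mul]
      exact (hc c hct ξ hξ k (z j)).symm
    rw [hJ, AlgHom.map_det, h1, Matrix.det_smul, Fintype.card_fin, jacChart]

end Vale.Agent.P271.H879
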