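import Vale.Agent.P271.H879.Form
import Vale.Agent.P271.Inst.Cov

/-! P271 (helper879), block L2REG: locally square integrable forms are regular. -/

open IsLocalRing Filter Topology Metric MeasureTheory
open scoped ENNReal

namespace Vale.Agent.P271.H879

open Vale.Agent.P271.H741 Vale.Agent.P271.Sch Vale.Agent.P271.Inst

variable {n : ℕ} {C : GCone n}

/-- The local regularity criterion in a chart (proved in `H577/Krull.lean`). -/
def Crit {φ : C.Pt} (c : Chart φ (n + 1)) : Prop :=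
  ∀ u v : C.R, v ≠ 0 →
    LInt 0 (fun x => ENNReal.ofReal (‖c.ψ x u‖ ^ 2 / ‖c.ψ x v‖ ^ 2)) →
    ∃ s r : C.R, φ s ≠ 0 ∧ s * u = r * v

theorem l2reg_of {φ : C.Pt} (hφ : GCone.NV φ)
    (hcrit : ∀ c : Chart φ (n + 1), (∀ r, φ r = 0 → ∃ s, φ s ≠ 0 ∧
      s * r ∈ Ideal.span (Set.range c.t)) → Crit c)
    (z : Fin (n + 1) → C.R) {a b : C.R} (hb : b ≠ 0)
    (h : ∀ c : Chart φ (n + 1), LInt 0 fun x => ENNReal.ofReal (‖c.ψ x a / c.ψ x b *
      (Matrix.of fun i j => fderiv ℂ (fun y => c.ψ y (z i)) x (Pi.single j 1)).det‖ ^ 2))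
    (D : Fin (n + 1) → Derivation ℂ C.K C.K) (hD : ∀ k, GCone.RegDer φ (D k)) :
    GCone.RegAt φ (algebraMap C.R C.K a / algebraMap C.R C.K b * GCone.jac z D) := by
  obtain ⟨x, hx, hgen⟩ := cone_exists_parameters hφ
  obtain ⟨c, hc⟩ := cone_exists_chart_of_parameters hφ hx hgen
  obtain ⟨δ, J, D₀, hδ, -, -, hjac, hJc⟩ := exists_jac hφ hx hgen z
  have hbK : algebraMap C.R C.K b ≠ 0 := algebraMap_ne hb
  -- a local bound for `δ`
  have hδc : ∀ᶠ ξ in 𝓝 (0 : Fin (n + 1) → ℂ), ‖c.ψ ξ δ‖ ≤ ‖φ δ‖ + 1 := by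
    have h1 : ContinuousAt (fun ξ => ‖c.ψ ξ δ‖) 0 :=
      ((c.holo δ 0 (mem_ball_self c.ρ_pos)).continuousAt).norm
    have h2 := h1.eventually_lt (continuousAt_const (y := ‖φ δ‖ + 1)) (by
      rw [c.zero]; linarith)
    exact h2.mono fun ξ hξ => hξ.le
  have hL : LInt 0 (fun ξ => ENNReal.ofReal (‖c.ψ ξ (a * J)‖ ^ 2 / ‖c.ψ ξ b‖ ^ 2)) := by
    have h1 := (h c).const_mul (C := ENNReal.ofReal ((‖φ δ‖ + 1) ^ (2 * (n + 1))))
      ENNReal.ofReal_ne_top
    refine h1.mono ?_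
    filter_upwards [hδc, ball_mem_nhds _ c.ρ_pos] with ξ hξ hξ'
    rw [← ENNReal.ofReal_mul (by positivity)]
    refine ENNReal.ofReal_le_ofReal ?_
    have h2 := hJc c hc ξ hξ'
    have h3 : jacChart c z ξ = (Matrix.of fun i j =>
        fderiv ℂ (fun y => c.ψ y (z i)) ξ (Pi.single j 1)).det := by
      rw [jacChart, ← Matrix.det_transpose]
      rfl
    rw [map_mul, h2, h3]
    set Δ := (Matrix.of fun i j => fderiv ℂ (fun y => c.ψ y (z i)) ξ (Pi.single j 1)).det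
    rw [← div_pow, ← norm_div]
    have h4 : c.ψ ξ a * (c.ψ ξ δ ^ (n + 1) * Δ) / c.ψ ξ b =
        c.ψ ξ δ ^ (n + 1) * (c.ψ ξ a / c.ψ ξ b * Δ) := by ring
    rw [h4, norm_mul, mul_pow, norm_pow, ← pow_mul, mul_comm (n + 1) 2]
    exact mul_le_mul_of_nonneg_right (pow_le_pow_left₀ (norm_nonneg _) hξ _) (by positivity)
  obtain ⟨s, r, hs, hsr⟩ := hcrit c (by rw [hc]; exact hgen) (a * J) b hb hL
  have hs0 : s ≠ 0 := by rintro rfl; exact hs (map_zero φ)
  have hsK : algebraMap C.R C.K s ≠ 0 := algebraMap_ne hs0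
  obtain ⟨g, hg, hgJ⟩ := hjac D hD
  have h5 : algebraMap C.R C.K a / algebraMap C.R C.K b * GCone.jac z D =
      g * (algebraMap C.R C.K r / algebraMap C.R C.K s) := by
    rw [hgJ]
    have h6 : algebraMap C.R C.K s * (algebraMap C.R C.K a * algebraMap C.R C.K J) =
        algebraMap C.R C.K r * algebraMap C.R C.K b := by
      rw [← map_mul, ← map_mul, ← map_mul, hsr]
    field_simp
    linear_combination g * h6
  rw [h5]
  exact RegAt.mul hg (regAt_div hs)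

end Vale.Agent.P271.H879
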