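import Vale.Agent.P271.H879.L2
import Vale.Agent.P271.H577.Krull

/-! P271 (helper879), block L2REG: final form. -/

open IsLocalRing Filter Topology Metric MeasureTheory
open scoped ENNReal

namespace Vale.Agent.P271.H879

open Vale.Agent.P271.H741 Vale.Agent.P271.Sch Vale.Agent.P271.Inst

variable {n : ℕ} {C : GCone n}

theorem crit {φ : C.Pt} (c : Chart φ (n + 1))
    (hgen : ∀ r, φ r = 0 → ∃ s, φ s ≠ 0 ∧ s * r ∈ Ideal.span (Set.range c.t)) : Crit c := by
  intro u v hv h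
  have := C.finiteType
  obtain ⟨ε, hε, -, hI⟩ := h.exists_ball one_pos
  exact H577.l2reg c hgen hv hε hI

/-- **L2REG.** A form `(a/b) dz_0 ∧ … ∧ dz_n` which is locally square integrable at `φ` is regular
at `φ`. -/
theorem l2reg {φ : C.Pt} (hφ : GCone.NV φ) (z : Fin (n + 1) → C.R) {a b : C.R} (hb : b ≠ 0)
    (h : ∀ c : Chart φ (n + 1), LInt 0 fun x => ENNReal.ofReal (‖c.ψ x a / c.ψ x b *
      (Matrix.of fun i j => fderiv ℂ (fun y => c.ψ y (z i)) x (Pi.single j 1)).det‖ ^ 2))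
    (D : Fin (n + 1) → Derivation ℂ C.K C.K) (hD : ∀ k, GCone.RegDer φ (D k)) :
    GCone.RegAt φ (algebraMap C.R C.K a / algebraMap C.R C.K b * GCone.jac z D) :=
  l2reg_of hφ crit z hb h D hD

end Vale.Agent.P271.H879
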